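import Mathlib
import Claimed.Prelude.Def_0467

/-!
# Row 291 (S0539), Defs/Frozen : THE ONE DOOR TO THE FROZEN DEFINITIONS      (owner helper40, CI + landing officer; prefix `frz_`)

RULE: no file of R291 imports `Claimed.Prelude.Def_0467` directly: import THIS file (or anything that imports it).

Why: Lean writes the equation lemmas `f.eq_1`, `f.eq_def`, `f.congr_simp` of a definition ON DEMAND, into the file that first cites them (`unfold f`, `simp [f]`,
`rw [f]`).  Two files of the closure of S0539 that each hold a copy collide in the joint run of the grader's checker (slow path, first thing lost if time runs out).
Here every such lemma of the 13 frozen definitions is cited once, below all other files, so no other file ever stores a copy.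
For YOUR OWN definitions do the same right after the definition as soon as the CI board (origin/helper40:notes/R291/CI.md) lists a copy.
-/

set_option autoImplicit false

namespace Claimed.Agent.R291

open Claims Claims.C0467

theorem frz_eqns_cite : True := by
  have := @triPos.eq_1; have := @triPos.eq_def
  have := @sqDist.eq_1; have := @sqDist.eq_def
  have := @hexFace.eq_1; have := @hexFace.eq_def
  have := @triAdj.eq_1; have := @triAdj.eq_def
  have := @faceRegion.eq_1; have := @faceRegion.eq_def
  have := @IsC2JordanDomain.eq_1; have := @IsC2JordanDomain.eq_def
  have := @IsInsideApprox.eq_1; have := @IsInsideApprox.eq_def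
  have := @heightAt.eq_1; have := @heightAt.eq_def
  have := @admissibleHeights.eq_1; have := @admissibleHeights.eq_def
  have := @heightChanges.eq_1; have := @heightChanges.eq_def
  have := @heightPairing.eq_1; have := @heightPairing.eq_def
  have := @lipschitzExpect.eq_1; have := @lipschitzExpect.eq_def
  have := @lap2.eq_1; have := @lap2.eq_def
  trivial

theorem frz_congr_cite : True := by
  have := @triPos.congr_simp; have := @sqDist.congr_simp; have := @hexFace.congr_simp; have := @triAdj.congr_simp
  have := @faceRegion.congr_simp; have := @IsC2JordanDomain.congr_simp; have := @IsInsideApprox.congr_simp
  have := @heightAt.congr_simp; have := @admissibleHeights.congr_simp; have := @heightChanges.congr_simp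
  have := @heightPairing.congr_simp; have := @lipschitzExpect.congr_simp; have := @lap2.congr_simp
  trivial

end Claimed.Agent.R291
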