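/-
# Row 291 (S0539): ABSTRACT CELL SYSTEMS (helper160)

Paper: Sec. 2.1 (cell table (2.3)), Sec. 2.2 (histories), Lemma 9.1 (ambient extension), Lemma 9.8 (plus equalities).

One vocabulary for every ambient complex of the paper (lattice discs with clipped cells, capped cylinders, glued discs):

* sites `V`, edges `ι` (edge `e` joins `C.s e` and `C.t e`), cells `Y`; `C.cell e` = the unique cell containing `e`;
  `C.q y` = cell parameter (`x^2` for a triangle, `x` or `1` for an edge cell), `C.xe e` = wall parameter of the edge (`x`, `1`).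
* spins `B W : V → Bool` (`false = -`, `true = +`), statuses `τ : Y → SignType` (`-1 < 0 < 1`; `0` = closed).
* `C.cw B W y θ` = the cell table (2.3); `C.jw` = product over the cells.
* a history `h : CsHist V ι Y` = first-spin pins `pB`, observed statuses `pT`, `W`-equality edges `E0`.
  `h.Full C` = "every observed cell has all its first-spin sites pinned".
* `C.wt h (B, τ)` = unnormalised weight of `(B, τ)` (second spins summed out, history imposed), `C.Zh h` its total mass,
  `C.Ex h F` the expectation.  The state space `(V → Bool) × (Y → SignType)` is a finite distributive lattice.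
* the ONLY topological input is `C.Split b` (a second-spin wall avoiding the `b`-mixed edges splits into its plus part and its
  minus part); `C.SC` ("every mod 2 edge cochain which is even on all 3-cycles is a coboundary") implies `C.Split b` for all `b`
  (`cs_split_of_SC`, file `Cell/Order.lean`).
-/
import Claimed.Agent.R291.Tool.IsingZ

set_option autoImplicit false
set_option linter.unusedSectionVars false
set_option linter.unusedVariables false

namespace Claimed.Agent.R291

open Finset

/-- abstract cell system. -/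
structure CellSys (V ι Y : Type*) where
  /-- first end of an edge -/
  s : ι → V
  /-- second end of an edge -/
  t : ι → V
  /-- the cell of an edge -/
  cell : ι → Y
  /-- cell parameter -/
  q : Y → ℝ
  /-- wall parameter of an edge -/
  xe : ι → ℝ

/-- a history: first-spin pins, observed statuses, `W`-equality edges. -/
structure CsHist (V ι Y : Type*) where
  pB : V → Option Bool
  pT : Y → Option SignType
  E0 : Finset ι

/-- state space of first spins and statuses. -/
abbrev CsOm (V Y : Type*) := (V → Bool) × (Y → SignType)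

section
variable {V ι Y : Type*}

namespace CellSys
variable (C : CellSys V ι Y)

/-- `σ` is constant along every edge of the cell `y`. -/
def Cst (σ : V → Bool) (y : Y) : Prop := ∀ e, C.cell e = y → σ (C.s e) = σ (C.t e)

/-- every site of the cell `y` carries the value `β`. -/
def Hom (σ : V → Bool) (y : Y) (β : Bool) : Prop :=
  ∀ e, C.cell e = y → σ (C.s e) = β ∧ σ (C.t e) = β

/-- `v` is a site of the cell `y`. -/
def Site (y : Y) (v : V) : Prop := ∃ e, C.cell e = y ∧ (C.s e = v ∨ C.t e = v)

open Classical in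
/-- the `W`-independent factor of the cell table. -/
noncomputable def kf (B : V → Bool) (y : Y) (θ : SignType) : ℝ :=
  if θ = 1 then (if C.Hom B y true then C.q y else 0)
  else if θ = -1 then (if C.Hom B y false then C.q y else 0)
  else (if C.Cst B y then 1 - C.q y else C.q y)

open Classical in
/-- **the cell table (2.3)**: open of sign `±` (`θ = ±1`): `B = ±` on the cell, `W` arbitrary, weight `q`; closed (`θ = 0`):
`W` constant, weight `1 - q` if `B` is constant and `q` otherwise. -/
noncomputable def cw (B W : V → Bool) (y : Y) (θ : SignType) : ℝ :=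
  C.kf B y θ * (if θ = 0 → C.Cst W y then 1 else 0)

/-- the three edges form a 3-cycle. -/
def Tri (e₁ e₂ e₃ : ι) : Prop :=
  ∃ u v w : V, ((C.s e₁ = u ∧ C.t e₁ = v) ∨ (C.s e₁ = v ∧ C.t e₁ = u)) ∧
    ((C.s e₂ = v ∧ C.t e₂ = w) ∨ (C.s e₂ = w ∧ C.t e₂ = v)) ∧
    ((C.s e₃ = w ∧ C.t e₃ = u) ∨ (C.s e₃ = u ∧ C.t e₃ = w))

/-- mod 2 simple connectivity: a cochain which is even on every 3-cycle is a coboundary. -/
def SC : Prop :=
  ∀ c : ι → Bool, (∀ e₁ e₂ e₃, C.Tri e₁ e₂ e₃ → xor (xor (c e₁) (c e₂)) (c e₃) = false) →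
    ∃ σ : V → Bool, ∀ e, c e = xor (σ (C.s e)) (σ (C.t e))

/-- the splitting property at the first-spin configuration `b`: the plus part of a wall is a wall. -/
def Split (b : V → Bool) : Prop :=
  ∀ W : V → Bool, (∀ e, W (C.s e) ≠ W (C.t e) → b (C.s e) = b (C.t e)) →
    ∃ σ : V → Bool, ∀ e, σ (C.s e) ≠ σ (C.t e) ↔ (W (C.s e) ≠ W (C.t e) ∧ b (C.s e) = true)

end CellSys

namespace CsHist
variable (h : CsHist V ι Y)

/-- `B` satisfies the pins. -/
def OkB (B : V → Bool) : Prop := ∀ v β, h.pB v = some β → B v = β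

/-- `τ` has the observed statuses. -/
def OkT (τ : Y → SignType) : Prop := ∀ y θ, h.pT y = some θ → τ y = θ

/-- `W` satisfies the equalities. -/
def OkW (C : CellSys V ι Y) (W : V → Bool) : Prop := ∀ e ∈ h.E0, W (C.s e) = W (C.t e)

/-- every observed cell has all its first-spin sites pinned. -/
def Full (C : CellSys V ι Y) : Prop :=
  ∀ y θ, h.pT y = some θ → ∀ e, C.cell e = y → (h.pB (C.s e)).isSome ∧ (h.pB (C.t e)).isSome

/-- **ordered histories** (`h₁` below `h₂`): same observed cells with ordered statuses; ordered common pins, extra plus pins only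
above, extra minus pins only below; extra equality edges below only between common plus pins, above only between common minus
pins (Lemma 9.8). -/
structure Le (C : CellSys V ι Y) (h₁ h₂ : CsHist V ι Y) : Prop where
  pT : ∀ y, (h₁.pT y = none ∧ h₂.pT y = none) ∨
    ∃ θ₁ θ₂, h₁.pT y = some θ₁ ∧ h₂.pT y = some θ₂ ∧ θ₁ ≤ θ₂
  pB_up : ∀ v β, h₂.pB v = some β → β = true ∨ h₁.pB v = some false
  pB_dn : ∀ v β, h₁.pB v = some β → β = false ∨ h₂.pB v = some true
  E_dn : ∀ e ∈ h₁.E0, e ∈ h₂.E0 ∨ (h₁.pB (C.s e) = some true ∧ h₁.pB (C.t e) = some true ∧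
    h₂.pB (C.s e) = some true ∧ h₂.pB (C.t e) = some true)
  E_up : ∀ e ∈ h₂.E0, e ∈ h₁.E0 ∨ (h₁.pB (C.s e) = some false ∧ h₁.pB (C.t e) = some false ∧
    h₂.pB (C.s e) = some false ∧ h₂.pB (C.t e) = some false)

end CsHist

end

section
variable {V ι Y : Type*} [Fintype V] [DecidableEq V] [Fintype ι] [DecidableEq ι] [Fintype Y]
  [DecidableEq Y]

namespace CellSys
variable (C : CellSys V ι Y)

/-- admissible parameters. -/
structure Ok : Prop where
  q0 : ∀ y, 0 ≤ C.q y
  q1 : ∀ y, C.q y ≤ 1
  x0 : ∀ e, 0 ≤ C.xe e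
  x1 : ∀ e, C.xe e ≤ 1
  /-- every cell has an edge; dummy cells (no edge) are allowed with parameter `0` (they are closed a.s.) -/
  ne : ∀ y, (∃ e, C.cell e = y) ∨ C.q y = 0
  /-- cells are connected -/
  conn : ∀ (σ : V → Bool) y, C.Cst σ y → C.Hom σ y true ∨ C.Hom σ y false
  /-- the changing edges of a non constant spin on a cell carry the total weight `q` -/
  wall : ∀ (σ : V → Bool) y, ¬ C.Cst σ y →
    ∏ e ∈ univ.filter (fun e => C.cell e = y), (if σ (C.s e) = σ (C.t e) then 1 else C.xe e) = C.q y

/-- joint weight of `(B, W, τ)`. -/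
noncomputable def jw (B W : V → Bool) (τ : Y → SignType) : ℝ := ∏ y, C.cw B W y (τ y)

open Classical in
/-- unnormalised weight of `(B, τ)` under the history `h`, second spins summed out. -/
noncomputable def wt (h : CsHist V ι Y) (ω : CsOm V Y) : ℝ :=
  if h.OkB ω.1 ∧ h.OkT ω.2 then ∑ W : V → Bool, (if h.OkW C W then C.jw ω.1 W ω.2 else 0) else 0

/-- the sites of a cell. -/
noncomputable def sup (y : Y) : Finset V :=
  (univ.filter fun e => C.cell e = y).image C.s ∪ (univ.filter fun e => C.cell e = y).image C.t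

open Classical in
/-- generic conditional sum over `(B, W, τ)` (wish of 146): free ambient weight restricted to the event `K`. -/
noncomputable def csS (K : (V → Bool) → (V → Bool) → (Y → SignType) → Prop)
    (F : (V → Bool) → (V → Bool) → (Y → SignType) → ℝ) : ℝ :=
  ∑ B : V → Bool, ∑ W : V → Bool, ∑ τ : Y → SignType, if K B W τ then C.jw B W τ * F B W τ else 0

/-- generic conditional expectation. -/
noncomputable def csE (K : (V → Bool) → (V → Bool) → (Y → SignType) → Prop)
    (F : (V → Bool) → (V → Bool) → (Y → SignType) → ℝ) : ℝ :=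
  C.csS K F / C.csS K fun _ _ _ => 1

/-- partition function of a history. -/
noncomputable def Zh (h : CsHist V ι Y) : ℝ := ∑ ω, C.wt h ω

/-- expectation under a history. -/
noncomputable def Ex (h : CsHist V ι Y) (F : CsOm V Y → ℝ) : ℝ := (∑ ω, C.wt h ω * F ω) / C.Zh h

end CellSys

namespace CsHist
variable (h : CsHist V ι Y)

/-- the event of a history. -/
def ev (C : CellSys V ι Y) (B W : V → Bool) (τ : Y → SignType) : Prop :=
  h.OkB B ∧ h.OkW C W ∧ h.OkT τ

/-- add (or overwrite) a first-spin pin. -/
def addPin (v : V) (β : Bool) : CsHist V ι Y := { h with pB := Function.update h.pB v (some β) }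

/-- observe (or overwrite) a status. -/
def addObs (y : Y) (θ : SignType) : CsHist V ι Y := { h with pT := Function.update h.pT y (some θ) }

/-- add an equality edge. -/
def addEq (e : ι) : CsHist V ι Y := { h with E0 := insert e h.E0 }

/-- the empty history. -/
def free : CsHist V ι Y := ⟨fun _ => none, fun _ => none, ∅⟩

end CsHist

end

/-- the equation and congruence lemmas of the definitions of this file are generated HERE, once (RULES.md, rule 6; CI board of 40) -/
theorem cs_defs_eqns_cite : True := by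
  have := @CellSys.Cst.eq_1.{0,0,0}
  have := @CellSys.Hom.eq_1.{0,0,0}
  have := @CellSys.Site.eq_1.{0,0,0}
  have := @CellSys.kf.eq_1.{0,0,0}
  have := @CellSys.cw.eq_1.{0,0,0}
  have := @CellSys.Tri.eq_1.{0,0,0}
  have := @CellSys.SC.eq_1.{0,0,0}
  have := @CellSys.Split.eq_1.{0,0,0}
  have := @CsHist.OkB.eq_1.{0,0,0}
  have := @CsHist.OkT.eq_1.{0,0,0}
  have := @CsHist.OkW.eq_1.{0,0,0}
  have := @CsHist.Full.eq_1.{0,0,0}
  have := @CellSys.jw.eq_1.{0,0,0}
  have := @CellSys.wt.eq_1.{0,0,0}
  have := @CellSys.sup.eq_1.{0,0,0}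
  have := @CellSys.csS.eq_1.{0,0,0}
  have := @CellSys.csE.eq_1.{0,0,0}
  have := @CellSys.Zh.eq_1.{0,0,0}
  have := @CellSys.Ex.eq_1.{0,0,0}
  have := @CsHist.ev.eq_1.{0,0,0}
  have := @CsHist.addPin.eq_1.{0,0,0}
  have := @CsHist.addObs.eq_1.{0,0,0}
  have := @CsHist.addEq.eq_1.{0,0,0}
  have := @CsHist.free.eq_1.{0,0,0}
  have := @CellSys.Cst.congr_simp.{0,0,0}
  have := @CellSys.Hom.congr_simp.{0,0,0}
  have := @CellSys.Site.congr_simp.{0,0,0}
  have := @CellSys.kf.congr_simp.{0,0,0}
  have := @CellSys.cw.congr_simp.{0,0,0}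
  have := @CellSys.Tri.congr_simp.{0,0,0}
  have := @CellSys.SC.congr_simp.{0,0,0}
  have := @CellSys.Split.congr_simp.{0,0,0}
  have := @CsHist.OkB.congr_simp.{0,0,0}
  have := @CsHist.OkT.congr_simp.{0,0,0}
  have := @CsHist.OkW.congr_simp.{0,0,0}
  have := @CsHist.Full.congr_simp.{0,0,0}
  have := @CellSys.jw.congr_simp.{0,0,0}
  have := @CellSys.wt.congr_simp.{0,0,0}
  have := @CellSys.sup.congr_simp.{0,0,0}
  have := @CellSys.csS.congr_simp.{0,0,0}
  have := @CellSys.csE.congr_simp.{0,0,0}
  have := @CellSys.Zh.congr_simp.{0,0,0}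
  have := @CellSys.Ex.congr_simp.{0,0,0}
  have := @CsHist.ev.congr_simp.{0,0,0}
  have := @CsHist.addPin.congr_simp.{0,0,0}
  have := @CsHist.addObs.congr_simp.{0,0,0}
  have := @CsHist.addEq.congr_simp.{0,0,0}
  have := @CsHist.free.congr_simp.{0,0,0}
  trivial

end Claimed.Agent.R291
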