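import Claimed.Agent.R291.Dis.Base
import Claimed.Agent.R291.Tool.TriSC

/-!
# Row 291 (S0539), Defs/Cut : INTRINSIC CUT LAWS, GENERAL INVASION, ARMS, TWO-COLOUR LAW, SYMMETRIES      (owner helper22, architect of ANN:A0; prefix `cu` / `Cu`)

v2 (05:30Z): ADDITIONS to the vocabulary of `Dis/Base.lean` (helper146), which is THE vocabulary of DIS and ANN on the abstract cell systems `ClSys V Y` of `Defs/Cell` (helper115):
`clSg, ClOk, ClDisk, ClMono, ClMonoP, ClLoc, ClLocP, ClLegal, ClLe, clCross, ClCut, S.cin, S.cout, clStep, clInv, ClSep, S.N, S.Z, S.E, S.P`.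
Language = `origin/helper121:notes/R291/T23_CHAIN.md` Sec. 0.   NO curves, NO contours.

* `S.gr` the graph "two sites of a common cell";      `S.SC` = `TriSCOn (ZMod 2) S.gr S.A` (147: triangles generate the cycles);   `cu_disk` (Ann/Model): `SC` + connected ⟹ `ClDisk`
* `CuPin s T ω`  the first spin equals `s` on `T`;   `CuDec S L`  decreasing event;   `S.cmt I`  cells MEETING `I`
* `cuInvG S fav E O`  INVASION with a general favourable predicate: closure of `O` under the cells which are NOT favourable and under the equality edges;      `clInv S s E ω O = cuInvG S (τ = s) E O` (`cu_inv_eq`, rfl)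
  `cuInvO S E ω O`  invasion through the CLOSED cells (favourable = open, any sign);      `CuSepO S E ω O Z`
* `cuClu S s ω O`  cluster of `O` through the cells of sign `s`;   `CuCon S s ω O Z`  = "a path of cells of sign `s` joins `O` to `Z`" (ARM; typed as a path, 121 L3)
* `S.inn I`  the system on `I` with the cells inside `I` only;   `cuLay S I`  the LAYER of `I` (sites of `I` in a cell not inside `I`);      **`cuE S s I K F`, `cuP S s I K L`** = the intrinsic cut law `P^s_I` (121) = `cutE` (146): `B = s` on the layer, `W` free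
* `ClCfg2`, `clCellW2`, `S.wt2`, `S.E2`  THE TWO-COLOUR LAW (one uniform per cell, GL Def. 3.5, in discrete form): statuses of both colours; `ω.fst`, `ω.snd` the two one-colour configurations (`snd` = colours exchanged), `ω.col c`, `ω.swap`;
  `cuE2 S c s I K F`, `cuP2`  cut law of the colour `c` with both statuses;   `CuIn2`, `CuRec2`  measurability
* `ClCfg.flipB A`, `ClCfg.flipW A`, `ClCfg.map φ ψ`   the symmetries on configurations;   `CuIso S S' φ ψ`  isomorphism of systems
-/

set_option autoImplicit false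
set_option linter.unusedSectionVars false
set_option linter.unusedVariables false

namespace Claimed.Agent.R291

open Relation

section abstract

variable {V Y : Type} [DecidableEq V] [DecidableEq Y]

/-! ### the graph of a system -/

/-- the graph of the system: two distinct sites of a common cell -/
def ClSys.gr (S : ClSys V Y) : SimpleGraph V where
  Adj u v := u ≠ v ∧ ∃ y ∈ S.C, u ∈ S.sv y ∧ v ∈ S.sv y
  symm := ⟨fun _ _ h => ⟨h.1.symm, by obtain ⟨y, hy, h1, h2⟩ := h.2; exact ⟨y, hy, h2, h1⟩⟩⟩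
  loopless := ⟨fun _ h => h.1 rfl⟩

/-- the triangles generate the cycles (mod 2) -/
def ClSys.SC (S : ClSys V Y) : Prop := TriSCOn (ZMod 2) S.gr (↑S.A : Set V)

/-- the first spin equals `s` on `T` -/
def CuPin (s : Bool) (T : Finset V) (ω : ClCfg V Y) : Prop := ∀ v ∈ T, (v ∈ ω.B ↔ s = true)

/-- decreasing event -/
def CuDec (S : ClSys V Y) (L : ClCfg V Y → Prop) : Prop :=
  ∀ ω ω' : ClCfg V Y, ω.B ⊆ ω'.B → (∀ y ∈ S.C, clTau S ω y ≤ clTau S ω' y) → L ω' → L ω

/-- cells meeting `I` -/
def ClSys.cmt (S : ClSys V Y) (I : Finset V) : Finset Y := S.C.filter (fun y => ∃ u ∈ S.sv y, u ∈ I)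

/-! ### invasion with a general favourable predicate -/

/-- one step of the invasion: through a cell which is not favourable, or along an equality edge -/
def CuStepG (S : ClSys V Y) (fav : Y → Prop) (E : Finset (V × V)) (u v : V) : Prop :=
  (∃ y ∈ S.C, u ∈ S.sv y ∧ v ∈ S.sv y ∧ ¬ fav y) ∨ (u, v) ∈ E ∨ (v, u) ∈ E

open Classical in
/-- the invaded set -/
noncomputable def cuInvG (S : ClSys V Y) (fav : Y → Prop) (E : Finset (V × V)) (O : Finset V) : Finset V :=
  S.A.filter (fun v => ∃ u ∈ O, ReflTransGen (CuStepG S fav E) u v)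

/-- the invasion of `Dis/Base` is the instance "favourable = open of sign `s`" -/
theorem cu_inv_eq (S : ClSys V Y) (s : Bool) (E : Finset (V × V)) (ω : ClCfg V Y) (O : Finset V) :
    clInv S s E ω O = cuInvG S (fun y => clTau S ω y = clSg s) E O := rfl

/-- invasion through the closed cells -/
noncomputable def cuInvO (S : ClSys V Y) (E : Finset (V × V)) (ω : ClCfg V Y) (O : Finset V) : Finset V :=
  cuInvG S (fun y => y ∈ ω.O) E O

/-- "a circuit of open cells (of any sign) separates `O` from `Z`" -/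
def CuSepO (S : ClSys V Y) (E : Finset (V × V)) (ω : ClCfg V Y) (O Z : Finset V) : Prop :=
  ∀ u ∈ O, ∀ v ∈ Z, ¬ ReflTransGen (CuStepG S (fun y => y ∈ ω.O) E) u v

/-- cluster of `O` through the cells of sign `s` -/
noncomputable def cuClu (S : ClSys V Y) (s : Bool) (ω : ClCfg V Y) (O : Finset V) : Finset V :=
  cuInvG S (fun y => clTau S ω y ≠ clSg s) ∅ O

/-- "a path of cells of sign `s` joins `O` to `Z`" -/
def CuCon (S : ClSys V Y) (s : Bool) (ω : ClCfg V Y) (O Z : Finset V) : Prop :=
  ∃ u ∈ O, ∃ v ∈ Z, ReflTransGen (CuStepG S (fun y => clTau S ω y ≠ clSg s) ∅) u v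

/-! ### intrinsic cut laws -/

/-- the system on `I`, cells inside `I` only -/
def ClSys.inn (S : ClSys V Y) (I : Finset V) : ClSys V Y := ⟨I, S.cin I, S.sv, S.q⟩

/-- the layer of `I`: sites of `I` which lie in a cell not inside `I` -/
def cuLay (S : ClSys V Y) (I : Finset V) : Finset V := I.filter (fun u => ∃ y ∈ S.C, u ∈ S.sv y ∧ ¬ S.sv y ⊆ I)

/-- **the intrinsic cut law** `P^s_I`, with an extra constraint `K` -/
noncomputable def cuE (S : ClSys V Y) (s : Bool) (I : Finset V) (K : ClCfg V Y → Prop) (F : ClCfg V Y → ℝ) : ℝ :=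
  (S.inn I).E (fun ω => CuPin s (cuLay S I) ω ∧ K ω) F

/-- probability under the intrinsic cut law -/
noncomputable def cuP (S : ClSys V Y) (s : Bool) (I : Finset V) (K L : ClCfg V Y → Prop) : ℝ :=
  (S.inn I).P (fun ω => CuPin s (cuLay S I) ω ∧ K ω) L

/-! ### symmetries -/

/-- flip of the first spin -/
def ClCfg.flipB (A : Finset V) (ω : ClCfg V Y) : ClCfg V Y := ⟨A \ ω.B, ω.W, ω.O⟩

/-- flip of the second spin -/
def ClCfg.flipW (A : Finset V) (ω : ClCfg V Y) : ClCfg V Y := ⟨ω.B, A \ ω.W, ω.O⟩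

/-- transport of a configuration -/
def ClCfg.map {V' Y' : Type} [DecidableEq V'] [DecidableEq Y'] (φ : V → V') (ψ : Y → Y') (ω : ClCfg V Y) : ClCfg V' Y' :=
  ⟨ω.B.image φ, ω.W.image φ, ω.O.image ψ⟩

/-- isomorphism of cell systems -/
structure CuIso {V' Y' : Type} [DecidableEq V'] [DecidableEq Y'] (S : ClSys V Y) (S' : ClSys V' Y') (φ : V → V') (ψ : Y → Y') : Prop where
  injV : Set.InjOn φ ↑S.A
  injY : Set.InjOn ψ ↑S.C
  A : S.A.image φ = S'.A
  C : S.C.image ψ = S'.C
  sv : ∀ y ∈ S.C, S'.sv (ψ y) = (S.sv y).image φ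
  q : ∀ y ∈ S.C, S'.q (ψ y) = S.q y

/-! ### the two-colour law -/

/-- a two-colour configuration: both spins, open cells of both colours -/
@[ext] structure ClCfg2 (V Y : Type) where
  B : Finset V
  W : Finset V
  OB : Finset Y
  OW : Finset Y

/-- the configuration of the first colour -/
def ClCfg2.fst (ω : ClCfg2 V Y) : ClCfg V Y := ⟨ω.B, ω.W, ω.OB⟩

/-- the configuration of the second colour (colours exchanged) -/
def ClCfg2.snd (ω : ClCfg2 V Y) : ClCfg V Y := ⟨ω.W, ω.B, ω.OW⟩

/-- exchange of the two colours -/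
def ClCfg2.swap (ω : ClCfg2 V Y) : ClCfg2 V Y := ⟨ω.W, ω.B, ω.OW, ω.OB⟩

/-- the one-colour configuration of the colour `c` (`true` = first colour `B`, `false` = second colour `W`) -/
def ClCfg2.col (c : Bool) (ω : ClCfg2 V Y) : ClCfg V Y := if c then ω.fst else ω.snd

/-- the two-colour cell table: both constant: (open, open) `2q - 1`, (open, closed) and (closed, open) `1 - q`;   `W` not constant: (open, closed) `q`;   `B` not constant: (closed, open) `q` -/
def clCellW2 (q : ℝ) (bc wc ob ow : Prop) [Decidable bc] [Decidable wc] [Decidable ob] [Decidable ow] : ℝ :=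
  if bc then
    (if wc then (if ob then (if ow then 2 * q - 1 else 1 - q) else (if ow then 1 - q else 0))
      else (if ob then (if ow then 0 else q) else 0))
  else (if wc then (if ob then 0 else (if ow then q else 0)) else 0)

/-- weight of a two-colour configuration -/
def ClSys.wt2 (S : ClSys V Y) (ω : ClCfg2 V Y) : ℝ :=
  ∏ y ∈ S.C, clCellW2 (S.q y) (ClConst ω.B (S.sv y)) (ClConst ω.W (S.sv y)) (y ∈ ω.OB) (y ∈ ω.OW)

/-- all two-colour configurations -/
def ClSys.cfgs2 (S : ClSys V Y) : Finset (ClCfg2 V Y) :=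
  (S.A.powerset ×ˢ S.A.powerset ×ˢ S.C.powerset ×ˢ S.C.powerset).map
    ⟨fun t => ⟨t.1, t.2.1, t.2.2.1, t.2.2.2⟩, fun s t h => by
      simp only [ClCfg2.mk.injEq] at h
      exact Prod.ext h.1 (Prod.ext h.2.1 (Prod.ext h.2.2.1 h.2.2.2))⟩

open Classical in
/-- unnormalised expectation under the two-colour law -/
noncomputable def ClSys.N2 (S : ClSys V Y) (K : ClCfg2 V Y → Prop) (G : ClCfg2 V Y → ℝ) : ℝ :=
  ∑ ω ∈ S.cfgs2, if K ω then S.wt2 ω * G ω else 0

/-- partition function of the two-colour law under the constraint `K` -/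
noncomputable def ClSys.Z2 (S : ClSys V Y) (K : ClCfg2 V Y → Prop) : ℝ := S.N2 K (fun _ => 1)

/-- expectation under the two-colour law -/
noncomputable def ClSys.E2 (S : ClSys V Y) (K : ClCfg2 V Y → Prop) (G : ClCfg2 V Y → ℝ) : ℝ := S.N2 K G / S.Z2 K

open Classical in
/-- probability under the two-colour law -/
noncomputable def ClSys.P2 (S : ClSys V Y) (K L : ClCfg2 V Y → Prop) : ℝ := S.E2 K (fun ω => if L ω then 1 else 0)

/-- **the intrinsic cut law of the colour `c` and the sign `s`, with both statuses**: the spin of colour `c` equals `s` on the layer, the other spin is free -/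
noncomputable def cuE2 (S : ClSys V Y) (c s : Bool) (I : Finset V) (K : ClCfg2 V Y → Prop) (F : ClCfg2 V Y → ℝ) : ℝ :=
  (S.inn I).E2 (fun ω => CuPin s (cuLay S I) (ω.col c) ∧ K ω) F

/-- probability under the two-status cut law -/
noncomputable def cuP2 (S : ClSys V Y) (c s : Bool) (I : Finset V) (K L : ClCfg2 V Y → Prop) : ℝ :=
  (S.inn I).P2 (fun ω => CuPin s (cuLay S I) (ω.col c) ∧ K ω) L

/-- `In(I)`-measurable two-status observable -/
def CuIn2 (S : ClSys V Y) (I : Finset V) (F : ClCfg2 V Y → ℝ) : Prop :=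
  ∀ ω ω' : ClCfg2 V Y, ω.B ∩ I = ω'.B ∩ I → ω.W ∩ I = ω'.W ∩ I → ω.OB ∩ S.cin I = ω'.OB ∩ S.cin I →
    ω.OW ∩ S.cin I = ω'.OW ∩ S.cin I → F ω = F ω'

/-- two-status record of the part `I`: spins on `I`, statuses of the cells MEETING `I` -/
def CuRec2 (S : ClSys V Y) (I : Finset V) (F : ClCfg2 V Y → ℝ) : Prop :=
  ∀ ω ω' : ClCfg2 V Y, ω.B ∩ I = ω'.B ∩ I → ω.W ∩ I = ω'.W ∩ I → ω.OB ∩ S.cmt I = ω'.OB ∩ S.cmt I →
    ω.OW ∩ S.cmt I = ω'.OW ∩ S.cmt I → F ω = F ω'

end abstract

/-- the equation lemmas of the definitions of this file are generated HERE -/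
theorem cu_defs_eqns_cite : True := by
  have := @ClSys.gr.eq_1
  have := @ClSys.SC.eq_1
  have := @CuPin.eq_1
  have := @CuDec.eq_1
  have := @ClSys.cmt.eq_1
  have := @CuStepG.eq_1
  have := @cuInvG.eq_1
  have := @cuInvO.eq_1
  have := @CuSepO.eq_1
  have := @cuClu.eq_1
  have := @CuCon.eq_1
  have := @ClSys.inn.eq_1
  have := @cuLay.eq_1
  have := @cuE.eq_1
  have := @cuP.eq_1
  have := @ClCfg.flipB.eq_1
  have := @ClCfg.flipW.eq_1
  have := @ClCfg.map.eq_1
  have := @ClCfg2.fst.eq_1
  have := @ClCfg2.snd.eq_1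
  have := @ClCfg2.swap.eq_1
  have := @ClCfg2.col.eq_1
  have := @clCellW2.eq_1
  have := @ClSys.wt2.eq_1
  have := @ClSys.cfgs2.eq_1
  have := @ClSys.N2.eq_1
  have := @ClSys.Z2.eq_1
  have := @ClSys.E2.eq_1
  have := @ClSys.P2.eq_1
  have := @cuE2.eq_1
  have := @cuP2.eq_1
  have := @CuIn2.eq_1
  have := @CuRec2.eq_1
  trivial

end Claimed.Agent.R291
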