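import Mathlib
import Claimed.Agent.R291.Defs.Frozen

/-!
# Row 291 (S0539), Defs/Lat : THE TRIANGULAR LATTICE IN THE FROZEN COORDINATES      (owner helper115; prefix `lat`)

Sites of the triangular lattice = faces of the honeycomb = `TV = ℤ × ℤ`, adjacency = the frozen `triAdj`.
Everything here is computable / decidable; NO probability.  Every unit of row 291 imports this file.

* `latPos` (3 positive directions, the frozen ones of `heightChanges`), `latDirs` (6 directions), `latNb u`
* `latN u` = graph distance to the origin (hexagonal norm), `latBall c r` = the paper's `Λ_r` (hexagon of faces)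
* `latBd F` = boundary LAYER of `F` (sites of `F` with a neighbour outside; the frozen zero layer), `latInt F = F \ latBd F`,
  `latOut A` = outer boundary, `latCl A = A ∪ latOut A`
* `latE A` = positive edges `(u, d)` (meaning `{u, u + d}`) MEETING `A`;  `latEin A` = positive edges INSIDE `A`
* `cellV y` = up-triangle `{y, y+(1,0), y+(0,1)}` (class `Y` of the paper), `cellD z` = down-triangle (class `Z`)
* `latRot` (rotation by 60 degrees), `latRefl` (reflection in the horizontal axis): exchange `cellV` and `cellD`;
  `latRot3` (120 degrees), `latReflV` (vertical axis): class preserving (`lat_rot3_cell`, `lat_reflV_cell`); translations are `(· + a)`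
* `latW δ f u` = face weight `∫_{hexFace δ u} f`,  `latPair δ f A h = ∑_{u ∈ A} latW δ f u * h u`
-/

set_option autoImplicit false
set_option linter.unnecessarySeqFocus false

namespace Claimed.Agent.R291

open Claims Claims.C0467

/-- sites of the triangular lattice (= faces of the honeycomb), frozen coordinates -/
abbrev TV : Type := ℤ × ℤ

/-- the three positive directions (those of the frozen `heightChanges`) -/
def latPos : Finset TV := {(1, 0), (0, 1), (-1, 1)}

/-- the six directions -/
def latDirs : Finset TV := {(1, 0), (0, 1), (-1, 1), (-1, 0), (0, -1), (1, -1)}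

theorem lat_adj_iff (u v : TV) : triAdj u v ↔ v - u ∈ latDirs := by
  simp [triAdj, latDirs]

instance latAdjDec : DecidableRel triAdj := fun u v => decidable_of_iff _ (lat_adj_iff u v).symm

theorem lat_dirs_neg {d : TV} (hd : d ∈ latDirs) : -d ∈ latDirs := by
  simp only [latDirs, Finset.mem_insert, Finset.mem_singleton] at hd ⊢
  rcases hd with rfl | rfl | rfl | rfl | rfl | rfl <;> simp

theorem lat_dirs_eq : latDirs = latPos ∪ latPos.image (fun d => -d) := by decide

theorem lat_pos_sub : latPos ⊆ latDirs := by decide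

theorem lat_dirs_ne {d : TV} (hd : d ∈ latDirs) : d ≠ 0 := by
  rintro rfl; revert hd; decide

theorem lat_adj_symm {u v : TV} (h : triAdj u v) : triAdj v u := by
  rw [lat_adj_iff] at h ⊢
  have := lat_dirs_neg h
  rwa [neg_sub] at this

theorem lat_adj_ne {u v : TV} (h : triAdj u v) : u ≠ v := by
  rintro rfl
  rw [lat_adj_iff, sub_self] at h
  exact lat_dirs_ne h rfl

theorem lat_adj_add (u : TV) {d : TV} (hd : d ∈ latDirs) : triAdj u (u + d) := by
  rw [lat_adj_iff]; simpa using hd

theorem lat_adj_shift (a : TV) {u v : TV} : triAdj (u + a) (v + a) ↔ triAdj u v := by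
  rw [lat_adj_iff, lat_adj_iff]; simp

/-- the six neighbours -/
def latNb (u : TV) : Finset TV := latDirs.image (fun d => u + d)

theorem lat_mem_nb {u v : TV} : v ∈ latNb u ↔ triAdj u v := by
  rw [lat_adj_iff, latNb, Finset.mem_image]
  constructor
  · rintro ⟨d, hd, rfl⟩; simpa using hd
  · intro h; exact ⟨v - u, h, by simp⟩

/-- hexagonal norm = graph distance to the origin -/
def latN (u : TV) : ℕ := max (max u.1.natAbs u.2.natAbs) (u.1 + u.2).natAbs

/-- graph distance -/
def latDist (u v : TV) : ℕ := latN (v - u)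

/-- the hexagon of faces `Λ_r` centred at `c` -/
noncomputable def latBall (c : TV) (r : ℕ) : Finset TV :=
  (Finset.Icc (c.1 - r) (c.1 + r) ×ˢ Finset.Icc (c.2 - r) (c.2 + r)).filter (fun u => latN (u - c) ≤ r)

theorem lat_mem_ball {c u : TV} {r : ℕ} : u ∈ latBall c r ↔ latN (u - c) ≤ r := by
  unfold latBall
  rw [Finset.mem_filter, and_iff_right_iff_imp]
  intro h
  unfold latN at h
  rw [Finset.mem_product, Finset.mem_Icc, Finset.mem_Icc]
  simp only [Prod.fst_sub, Prod.snd_sub] at h
  omega

/-- annulus of faces `Λ_R \ Λ_r` -/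
noncomputable def latAnn (c : TV) (r R : ℕ) : Finset TV := latBall c R \ latBall c r

/-- boundary LAYER: sites of `F` having a neighbour outside `F` (the frozen zero layer) -/
def latBd (F : Finset TV) : Finset TV := F.filter (fun u => ∃ d ∈ latDirs, u + d ∉ F)

/-- interior: sites of `F` all of whose neighbours are in `F` -/
def latInt (F : Finset TV) : Finset TV := F.filter (fun u => ∀ d ∈ latDirs, u + d ∈ F)

/-- outer boundary: sites outside `A` adjacent to `A` -/
def latOut (A : Finset TV) : Finset TV := (A.biUnion latNb) \ A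

/-- closure: `A` with its outer boundary -/
def latCl (A : Finset TV) : Finset TV := A ∪ A.biUnion latNb

theorem lat_mem_bd {F : Finset TV} {u : TV} : u ∈ latBd F ↔ u ∈ F ∧ ∃ v, triAdj u v ∧ v ∉ F := by
  unfold latBd
  rw [Finset.mem_filter]
  refine and_congr_right fun _ => ⟨?_, ?_⟩
  · rintro ⟨d, hd, h⟩; exact ⟨u + d, lat_adj_add u hd, h⟩
  · rintro ⟨v, hv, h⟩; exact ⟨v - u, (lat_adj_iff u v).1 hv, by simpa using h⟩

theorem lat_mem_int {F : Finset TV} {u : TV} : u ∈ latInt F ↔ u ∈ F ∧ ∀ v, triAdj u v → v ∈ F := by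
  unfold latInt
  rw [Finset.mem_filter]
  refine and_congr_right fun _ => ⟨?_, ?_⟩
  · intro h v hv
    have := h (v - u) ((lat_adj_iff u v).1 hv)
    simpa using this
  · intro h d hd; exact h _ (lat_adj_add u hd)

theorem lat_int_eq (F : Finset TV) : latInt F = F \ latBd F := by
  ext u
  rw [Finset.mem_sdiff, lat_mem_int, lat_mem_bd]
  constructor
  · rintro ⟨h1, h2⟩; exact ⟨h1, fun ⟨_, v, hv, hn⟩ => hn (h2 v hv)⟩
  · rintro ⟨h1, h2⟩
    refine ⟨h1, fun v hv => ?_⟩
    by_contra hn
    exact h2 ⟨h1, v, hv, hn⟩

theorem lat_int_sub (F : Finset TV) : latInt F ⊆ F := Finset.filter_subset _ _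

theorem lat_bd_sub (F : Finset TV) : latBd F ⊆ F := Finset.filter_subset _ _

theorem lat_mem_cl {A : Finset TV} {u : TV} : u ∈ latCl A ↔ u ∈ A ∨ ∃ v ∈ A, triAdj v u := by
  simp [latCl, lat_mem_nb]

theorem lat_cl_int_sub (F : Finset TV) : latCl (latInt F) ⊆ F := by
  intro u hu
  rcases lat_mem_cl.1 hu with h | ⟨v, hv, hvu⟩
  · exact lat_int_sub F h
  · exact (lat_mem_int.1 hv).2 u hvu

/-- positive edges `(u, d)` (standing for `{u, u + d}`) with at least one end in `A` -/
def latE (A : Finset TV) : Finset (TV × TV) :=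
  (latCl A ×ˢ latPos).filter (fun p => p.1 ∈ A ∨ p.1 + p.2 ∈ A)

/-- positive edges `(u, d)` with both ends in `A` -/
def latEin (A : Finset TV) : Finset (TV × TV) :=
  (A ×ˢ latPos).filter (fun p => p.1 + p.2 ∈ A)

theorem lat_mem_E {A : Finset TV} {p : TV × TV} :
    p ∈ latE A ↔ p.2 ∈ latPos ∧ (p.1 ∈ A ∨ p.1 + p.2 ∈ A) := by
  unfold latE
  rw [Finset.mem_filter, Finset.mem_product]
  constructor
  · rintro ⟨⟨_, h2⟩, h3⟩; exact ⟨h2, h3⟩
  · rintro ⟨h2, h3⟩
    refine ⟨⟨?_, h2⟩, h3⟩
    rcases h3 with h | h
    · exact lat_mem_cl.2 (Or.inl h)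
    · exact lat_mem_cl.2 (Or.inr ⟨_, h, lat_adj_symm (lat_adj_add _ (lat_pos_sub h2))⟩)

theorem lat_mem_Ein {A : Finset TV} {p : TV × TV} :
    p ∈ latEin A ↔ p.2 ∈ latPos ∧ p.1 ∈ A ∧ p.1 + p.2 ∈ A := by
  unfold latEin
  rw [Finset.mem_filter, Finset.mem_product]
  tauto

/-- the up-triangle with lower left corner `y` (class `Y`): every positive edge lies in exactly one of them -/
def cellV (y : TV) : Finset TV := {y, y + (1, 0), y + (0, 1)}

/-- the down-triangle (class `Z`) sharing the edge `{z+(1,0), z+(0,1)}` with `cellV z` -/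
def cellD (z : TV) : Finset TV := {z + (1, 0), z + (0, 1), z + (1, 1)}

/-- the up-cell containing the positive edge `(u, d)` -/
def latCellOf (p : TV × TV) : TV := if p.2 = (-1, 1) then p.1 - (1, 0) else p.1

theorem lat_cellOf_mem {p : TV × TV} (hp : p.2 ∈ latPos) :
    p.1 ∈ cellV (latCellOf p) ∧ p.1 + p.2 ∈ cellV (latCellOf p) := by
  obtain ⟨u, d⟩ := p
  simp only [latPos, Finset.mem_insert, Finset.mem_singleton] at hp
  rcases hp with rfl | rfl | rfl <;> simp [latCellOf, cellV, Prod.ext_iff, sub_eq_add_neg]

/-- up-cells meeting `A` -/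
def latCells (A : Finset TV) : Finset TV :=
  A ∪ A.image (fun u => u - (1, 0)) ∪ A.image (fun u => u - (0, 1))

/-- up-cells contained in `A` -/
def latCellsIn (A : Finset TV) : Finset TV := A.filter (fun y => cellV y ⊆ A)

theorem lat_mem_cellsIn {A : Finset TV} {y : TV} : y ∈ latCellsIn A ↔ cellV y ⊆ A := by
  unfold latCellsIn
  rw [Finset.mem_filter, and_iff_right_iff_imp]
  intro h; exact h (by simp [cellV])

theorem lat_mem_cells {A : Finset TV} {y : TV} : y ∈ latCells A ↔ ∃ u ∈ cellV y, u ∈ A := by
  simp only [latCells, cellV, Finset.mem_union, Finset.mem_image, Finset.mem_insert,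
    Finset.mem_singleton, exists_eq_or_imp, exists_eq_left]
  constructor
  · rintro ((h | ⟨u, hu, rfl⟩) | ⟨u, hu, rfl⟩)
    · exact Or.inl h
    · right; left; simpa using hu
    · right; right; simpa using hu
  · rintro (h | h | h)
    · exact Or.inl (Or.inl h)
    · exact Or.inl (Or.inr ⟨_, h, by simp⟩)
    · exact Or.inr ⟨_, h, by simp⟩

/-- rotation by 60 degrees about the origin: `(1,0) ↦ (0,1) ↦ (-1,1) ↦ (-1,0)` -/
def latRot (u : TV) : TV := (-u.2, u.1 + u.2)

/-- reflection in the horizontal axis: fixes `(1,0)`, `(0,1) ↦ (1,-1)` -/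
def latRefl (u : TV) : TV := (u.1 + u.2, -u.2)

theorem lat_rot_add (u v : TV) : latRot (u + v) = latRot u + latRot v := by
  simp only [latRot, Prod.ext_iff, Prod.fst_add, Prod.snd_add]
  constructor <;> ring

theorem lat_refl_add (u v : TV) : latRefl (u + v) = latRefl u + latRefl v := by
  simp only [latRefl, Prod.ext_iff, Prod.fst_add, Prod.snd_add]
  constructor <;> ring

theorem lat_refl_refl (u : TV) : latRefl (latRefl u) = u := by
  simp [latRefl]

theorem lat_rot_six (u : TV) : latRot (latRot (latRot (latRot (latRot (latRot u))))) = u := by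
  simp [latRot]

theorem lat_rot_dirs {d : TV} (hd : d ∈ latDirs) : latRot d ∈ latDirs := by
  revert d; decide

theorem lat_refl_dirs {d : TV} (hd : d ∈ latDirs) : latRefl d ∈ latDirs := by
  revert d; decide

/-- rotation by 120 degrees (class preserving: maps up-cells to up-cells) -/
def latRot3 (u : TV) : TV := (-u.1 - u.2, u.1)

/-- reflection in the vertical axis (class preserving) -/
def latReflV (u : TV) : TV := (-u.1 - u.2, u.2)

theorem lat_rot3_eq (u : TV) : latRot3 u = latRot (latRot u) := by
  simp only [latRot3, latRot, Prod.ext_iff]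
  constructor <;> ring

theorem lat_rot3_add (u v : TV) : latRot3 (u + v) = latRot3 u + latRot3 v := by
  ext <;> simp only [latRot3, Prod.fst_add, Prod.snd_add] <;> ring

theorem lat_reflV_add (u v : TV) : latReflV (u + v) = latReflV u + latReflV v := by
  ext <;> simp only [latReflV, Prod.fst_add, Prod.snd_add] <;> ring

theorem lat_reflV_reflV (u : TV) : latReflV (latReflV u) = u := by
  ext <;> simp only [latReflV] <;> ring

theorem lat_rot3_three (u : TV) : latRot3 (latRot3 (latRot3 u)) = u := by
  ext <;> simp only [latRot3] <;> ring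

theorem lat_rot3_dirs {d : TV} (hd : d ∈ latDirs) : latRot3 d ∈ latDirs := by
  revert d; decide

theorem lat_reflV_dirs {d : TV} (hd : d ∈ latDirs) : latReflV d ∈ latDirs := by
  revert d; decide

/-- the rotation by 120 degrees maps the up-cell `y` onto the up-cell `latRot3 y + (-1, 0)` -/
theorem lat_rot3_cell (y : TV) : (cellV y).image latRot3 = cellV (latRot3 y + (-1, 0)) := by
  simp only [cellV, Finset.image_insert, Finset.image_singleton, lat_rot3_add]
  have e1 : latRot3 (1, 0) = (-1, 1) := by decide
  have e2 : latRot3 (0, 1) = (-1, 0) := by decide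
  rw [e1, e2]
  ext u
  simp only [Finset.mem_insert, Finset.mem_singleton, Prod.ext_iff, Prod.fst_add, Prod.snd_add]
  constructor
  · rintro (h | h | h)
    · right; left; omega
    · right; right; omega
    · left; omega
  · rintro (h | h | h)
    · right; right; omega
    · left; omega
    · right; left; omega

/-- the reflection in the vertical axis maps the up-cell `y` onto the up-cell `latReflV y + (-1, 0)` -/
theorem lat_reflV_cell (y : TV) : (cellV y).image latReflV = cellV (latReflV y + (-1, 0)) := by
  simp only [cellV, Finset.image_insert, Finset.image_singleton, lat_reflV_add]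
  have e1 : latReflV (1, 0) = (-1, 0) := by decide
  have e2 : latReflV (0, 1) = (-1, 1) := by decide
  rw [e1, e2]
  ext u
  simp only [Finset.mem_insert, Finset.mem_singleton, Prod.ext_iff, Prod.fst_add, Prod.snd_add]
  constructor
  · rintro (h | h | h)
    · right; left; omega
    · left; omega
    · right; right; omega
  · rintro (h | h | h)
    · right; left; omega
    · left; omega
    · right; right; omega

/-- face weight of a test function -/
noncomputable def latW (δ : ℝ) (f : ℝ × ℝ → ℝ) (u : TV) : ℝ := ∫ z in hexFace δ u, f z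

/-- pairing of a height function with a test function, summed over the finite set `A` -/
noncomputable def latPair (δ : ℝ) (f : ℝ × ℝ → ℝ) (A : Finset TV) (h : TV → ℤ) : ℝ :=
  ∑ u ∈ A, latW δ f u * (h u : ℝ)

/-- pairing of a height function with a finitely supported array -/
noncomputable def latArr (a : TV →₀ ℝ) (h : TV → ℤ) : ℝ := a.sum (fun u c => c * (h u : ℝ))

/-- total mass of an array -/
noncomputable def latTot (a : TV →₀ ℝ) : ℝ := a.sum (fun _ c => c)

/-- the equation lemmas of the definitions of this file are generated HERE (RULES.md, rule 6) -/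
theorem lat_defs_eqns_cite : True := by
  have := @latPos.eq_1
  have := @latDirs.eq_1
  have := @latNb.eq_1
  have := @latN.eq_1
  have := @latDist.eq_1
  have := @latBall.eq_1
  have := @latAnn.eq_1
  have := @latBd.eq_1
  have := @latInt.eq_1
  have := @latOut.eq_1
  have := @latCl.eq_1
  have := @latE.eq_1
  have := @latEin.eq_1
  have := @cellV.eq_1
  have := @cellD.eq_1
  have := @latCellOf.eq_1
  have := @latCells.eq_1
  have := @latCellsIn.eq_1
  have := @latRot.eq_1
  have := @latRefl.eq_1
  have := @latRot3.eq_1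
  have := @latReflV.eq_1
  have := @latW.eq_1
  have := @latPair.eq_1
  have := @latArr.eq_1
  have := @latTot.eq_1
  trivial

end Claimed.Agent.R291
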