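import Claimed.Agent.R291.Defs.Cut
import Claimed.Agent.R291.Pl.SetForm

/-!
# Row 291 (S0539), Defs/Seed : THE MIXED CYLINDER `P_T` AND ITS CROSSING EVENTS      (owner helper83, co-head of ANN:A4; prefix `sd` / `Sd`)

TEX 09-annulus l.10-21 (the laws `P_T`), l.209-222 (crossing events).      Language = `origin/helper121:notes/R291/T23_CHAIN.md` Sec. 0; planar kit = `Pl/SetForm` (112).

THE CYLINDER.   Sites = `TV = ℤ × ℤ` REDUCED mod `(L, 0)` (fundamental domain `0 ≤ i < L`): the configuration type is the one of the plane (`ClCfg TV TV`), and a planar domain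
which does not wrap has literally the same cells.   Class `T : Bool`: `true` = up-triangles `cellV` (class `Y` of the paper), `false` = down-triangles `cellD` (class `Z`).
SAME INDEX CONVENTION FOR BOTH CLASSES: the cell of index `(i, j)` has its sites in the rows `j`, `j + 1`; two cells of one class share a site iff their indices are equal or `triAdj`.
* `sdSys x L T a b`   sites = rows `a..b`, cells = the cells of class `T` INSIDE these rows (index rows `a..b-1`), parameter `x^2`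
* `SdMix L a b ω`     first spin minus on the row `a`, plus on the row `b` (second spin free);      `SdMixW` the same for the SECOND spin (colours exchanged)
* `sdSet S L t ω`     LIFTED (periodic) set of the indices of the cells of status `t`
* **`sdP x L H T s E`** `= P_T[E(lifted set of the open cells of sign s)]`;      `sdPW x L H T s E` the same for the statuses of the colour `W`
EVENTS of a set `X ⊆ ℤ × ℤ` of cell indices (think: the plus cells).   PATH forms `SdTB`, `SdLR` (box), `SdVX` (band); DUAL forms (121 L3):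
* `SdH a b c d X`  = `H⁺(box)`  = no top-bottom path of the box off `X`;      `SdV a b c d X` = `V⁺(box)` = no left-right path of the box off `X`;      `SdBlk c d X` = no vertical crossing of the band off `X`
  (in a box the two forms are equivalent: `sd_H_iff`, `sd_V_iff` in `Ann/SeedDet`, from `pls_box_iff` of 112).
* `SdInc E` increasing event, `SdRows c d E` the event reads the index rows `c..d` only, `sdUp t E` the event translated UPWARDS by `t`, `sdSh a E` translated by `(a, 0)`.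
-/

set_option autoImplicit false
set_option linter.unusedSectionVars false
set_option linter.unusedVariables false

namespace Claimed.Agent.R291

open Claims Claims.C0467 Relation

/-! ### the cylinder -/

/-- reduction to the fundamental domain `0 ≤ i < L` -/
def sdRed (L : ℕ) (u : TV) : TV := (u.1 % (L : ℤ), u.2)

/-- the sites of the rows `a..b` -/
noncomputable def sdSites (L : ℕ) (a b : ℤ) : Finset TV := Finset.Ico (0 : ℤ) L ×ˢ Finset.Icc a b

/-- the indices of the cells inside the rows `a..b` -/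
noncomputable def sdCells (L : ℕ) (a b : ℤ) : Finset TV := Finset.Ico (0 : ℤ) L ×ˢ Finset.Ico a b

/-- the row `j` -/
noncomputable def sdRow (L : ℕ) (j : ℤ) : Finset TV := Finset.Ico (0 : ℤ) L ×ˢ {j}

/-- the sites of the cell of index `y` and class `T` -/
def sdCell (L : ℕ) (T : Bool) (y : TV) : Finset TV := (if T then cellV y else cellD y).image (sdRed L)

/-- the system of class `T` on the rows `a..b` (boundary cells excluded) -/
noncomputable def sdSys (x : ℝ) (L : ℕ) (T : Bool) (a b : ℤ) : ClSys TV TV :=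
  ⟨sdSites L a b, sdCells L a b, sdCell L T, fun _ => x ^ 2⟩

/-- mixed boundary condition: first spin minus on the row `a`, plus on the row `b` -/
def SdMix (L : ℕ) (a b : ℤ) (ω : ClCfg TV TV) : Prop := CuPin false (sdRow L a) ω ∧ CuPin true (sdRow L b) ω

/-- mixed boundary condition for the SECOND spin -/
def SdMixW (L : ℕ) (a b : ℤ) (ω : ClCfg TV TV) : Prop := (∀ v ∈ sdRow L a, v ∉ ω.W) ∧ sdRow L b ⊆ ω.W

/-- the lifted set of the indices of the cells of status `t` -/
def sdSet (S : ClSys TV TV) (L : ℕ) (t : ℤ) (ω : ClCfg TV TV) : Set TV := {y | sdRed L y ∈ S.C ∧ clTau S ω (sdRed L y) = t}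

/-- **`P_T[E(open cells of sign s)]`** on the mixed cylinder of circumference `L` and height `H` (rows `0..H`) -/
noncomputable def sdP (x : ℝ) (L H : ℕ) (T s : Bool) (E : Set TV → Prop) : ℝ :=
  (sdSys x L T 0 H).P (SdMix L 0 H) (fun ω => E (sdSet (sdSys x L T 0 H) L (clSg s) ω))

/-- the same law, statuses of the colour `W` (the configuration is read with the colours exchanged) -/
noncomputable def sdPW (x : ℝ) (L H : ℕ) (T s : Bool) (E : Set TV → Prop) : ℝ :=
  (sdSys x L T 0 H).P (SdMixW L 0 H) (fun ω => E (sdSet (sdSys x L T 0 H) L (clSg s) ω))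

/-! ### events -/

/-- a bottom-top path of the box inside `P` -/
def SdTB (a b c d : ℤ) (P : Set TV) : Prop :=
  ∃ u v : TV, u ∈ tscBox a b c d ∩ P ∧ u.2 = c ∧ v.2 = d ∧ TscR tscG (tscBox a b c d ∩ P) u v

/-- a left-right path of the box inside `P` -/
def SdLR (a b c d : ℤ) (P : Set TV) : Prop :=
  ∃ l r : TV, l ∈ tscBox a b c d ∩ P ∧ l.1 = a ∧ r.1 = b ∧ TscR tscG (tscBox a b c d ∩ P) l r

/-- a bottom-top path of the band inside `P` -/
def SdVX (c d : ℤ) (P : Set TV) : Prop :=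
  ∃ u v : TV, u ∈ plsBand c d ∩ P ∧ u.2 = c ∧ v.2 = d ∧ TscR tscG (plsBand c d ∩ P) u v

/-- `H⁺(box)`, dual form -/
def SdH (a b c d : ℤ) (X : Set TV) : Prop := ¬ SdTB a b c d Xᶜ

/-- `V⁺(box)`, dual form -/
def SdV (a b c d : ℤ) (X : Set TV) : Prop := ¬ SdLR a b c d Xᶜ

/-- the band is blocked by `X` -/
def SdBlk (c d : ℤ) (X : Set TV) : Prop := ¬ SdVX c d Xᶜ

/-- increasing event -/
def SdInc (E : Set TV → Prop) : Prop := ∀ X X' : Set TV, X ⊆ X' → E X → E X'

/-- the event reads the index rows `c..d` only -/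
def SdRows (c d : ℤ) (E : Set TV → Prop) : Prop := ∀ X X' : Set TV, X ∩ plsBand c d = X' ∩ plsBand c d → (E X ↔ E X')

/-- the event translated by the vector `a` -/
def sdTr (a : TV) (E : Set TV → Prop) : Set TV → Prop := fun X => E {y | y + a ∈ X}

/-- the event translated upwards by `t` -/
def sdUp (t : ℤ) (E : Set TV → Prop) : Set TV → Prop := sdTr (0, t) E

/-! ### contracts on `sdP` (ruling of 24, 06:03Z: the exits of A1, A2, A3 and (CYL) are typed on `sdP` + `SdH` / `SdV` / `SdBlk`, BOTH classes).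
`SdRsw`, `SdLen`: natural shape of the producers (band = index rows `c..c+r`); `SdGlue`: shape of the field `glue` of `CyKit` (`Ann/CylKit`, helper5).   The adapter to the kit is `Ann/CylBridge` (83). -/

/-- TEX(annulus:RSW) = (56) of GL2025: `V⁺(6r × r) ≥ δ ⟹ H⁺(4r × r) ≥ ψ(δ)`, same band = index rows `c..c+r`, boxes = `tscBox` in index coordinates.   OWNER A3 (187, 255: `rsc_exit`). -/
def SdRsw (x : ℝ) : Prop :=
  ∀ δ : ℝ, 0 < δ → ∃ ψ : ℝ, 0 < ψ ∧ ∃ r₀ : ℕ, ∀ (L H : ℕ) (T : Bool) (c r : ℤ), (r₀ : ℤ) ≤ r → 16 * r ≤ L → r ≤ c → c + 2 * r ≤ (H : ℤ) - 1 →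
    δ ≤ sdP x L H T true (SdV 0 (6 * r) c (c + r)) → ψ ≤ sdP x L H T true (SdH 0 (4 * r) c (c + r))

/-- horizontal lengthening (TEX l.233-242), same band = index rows `c..c+r`.   OWNER A2 (193, 20). -/
def SdLen (x : ℝ) : Prop :=
  ∀ (κ : ℕ) (δ : ℝ), 0 < δ → ∃ δ' : ℝ, 0 < δ' ∧ ∃ r₀ : ℕ, ∀ (L H : ℕ) (T : Bool) (c r : ℤ), (r₀ : ℤ) ≤ r → ((κ : ℤ) + 10) * r ≤ L → r ≤ c →
    c + 2 * r ≤ (H : ℤ) - 1 → δ ≤ sdP x L H T true (SdH 0 (4 * r) c (c + r)) → δ' ≤ sdP x L H T true (SdH 0 (κ * r) c (c + r))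

/-- TEX[annulus:gluing] with `ℓ = 10 m`, averaged: a plus crossing in the top strip and a plus crossing in the bottom strip of a box of height `10 m` are joined at constant cost.
OWNER A1 (55) / A2 (193): strip estimate (SE) in the box `[12m, 58m] × [k, k+10m-1]` (aspect `4.6 ≥ 3.5`). -/
def SdGlue (x : ℝ) : Prop :=
  ∃ cG : ℝ, 0 < cG ∧ ∃ r₀ : ℕ, ∀ (L H : ℕ) (T : Bool) (k m : ℤ), 20 ≤ H → H ≤ L → (r₀ : ℤ) ≤ m → 100 * m ≤ L → 3 + 3 * m ≤ k → k + 13 * m ≤ (H : ℤ) - 4 →
    cG * sdP x L H T true (fun X => SdH 0 (60 * m) (k + 8 * m) (k + 10 * m - 1) X ∧ SdH (10 * m) (70 * m) k (k + 2 * m - 1) X)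
      ≤ sdP x L H T true (SdV (12 * m) (58 * m) (k + 3 * m) (k + 7 * m))

/-- **(CYL)** of `T23_CHAIN.md`, both classes: every band of index rows `c..d`, `c ≥ 0.7 H`, `d - c ≥ ε H`, `d ≤ H - 4`, is blocked by the open-plus cells with probability `≥ δ(C, ε)`.   PRODUCER A4 (`Exit/AnnCyl`), CONSUMER A5. -/
def SdCyl (x : ℝ) : Prop :=
  ∀ (C : ℕ) (ε : ℝ), 0 < ε → ∃ δ : ℝ, 0 < δ ∧ ∃ H₀ : ℕ, ∀ (L H : ℕ) (T : Bool), H₀ ≤ H → H ≤ L → L ≤ C * H →
    ∀ c d : ℤ, 7 * (H : ℤ) ≤ 10 * c → (c : ℝ) + ε * H ≤ d → d ≤ (H : ℤ) - 4 → δ ≤ sdP x L H T true (SdBlk c d)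

/-- (CYL), mirror statement: the open-minus cells block every band `c..d`, `3 ≤ c`, `d - c ≥ ε H`, `d ≤ 0.3 H - 1` -/
def SdCylM (x : ℝ) : Prop :=
  ∀ (C : ℕ) (ε : ℝ), 0 < ε → ∃ δ : ℝ, 0 < δ ∧ ∃ H₀ : ℕ, ∀ (L H : ℕ) (T : Bool), H₀ ≤ H → H ≤ L → L ≤ C * H →
    ∀ c d : ℤ, 3 ≤ c → (c : ℝ) + ε * H ≤ d → 10 * d ≤ 3 * (H : ℤ) - 10 → δ ≤ sdP x L H T false (SdBlk c d)

/-- the equation lemmas of the definitions of this file are generated HERE -/
theorem sd_defs_eqns_cite : True := by
  have := @SdRsw.eq_1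
  have := @SdLen.eq_1
  have := @SdGlue.eq_1
  have := @SdCyl.eq_1
  have := @SdCylM.eq_1
  have := @sdRed.eq_1
  have := @sdSites.eq_1
  have := @sdCells.eq_1
  have := @sdRow.eq_1
  have := @sdCell.eq_1
  have := @sdSys.eq_1
  have := @SdMix.eq_1
  have := @SdMixW.eq_1
  have := @sdSet.eq_1
  have := @sdP.eq_1
  have := @sdPW.eq_1
  have := @SdTB.eq_1
  have := @SdLR.eq_1
  have := @SdVX.eq_1
  have := @SdH.eq_1
  have := @SdV.eq_1
  have := @SdBlk.eq_1
  have := @SdInc.eq_1
  have := @SdRows.eq_1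
  have := @sdTr.eq_1
  have := @sdUp.eq_1
  trivial

end Claimed.Agent.R291
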