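import Claimed.Agent.R291.Ann.Rsw
import Claimed.Agent.R291.Glue.Place
import Claimed.Agent.R291.Pl.Record

/-!
# Row 291 (S0539), unit ANN, block A3 PART II, Defs/RswStrip : THE DICTIONARY OF RECORD OF THE STRIP (`RsgDat`)      (owner helper269; moved out of `Ann/RswGlue` by helper164, ruling of 24 07:38Z; prefix `rsg_`, defs `Rsg…` / `rsg…`)

TEX[annulus:RSW] TEX[annulus:gluing]      DEFINITIONS ONLY, so that the producers of the contracts of `Ann/RswGlue` can work in their own files and be linked there in one line.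
STRIP DATA `D : RsgDat` = (class, band, box, `a`, `c`).   `rsgM D` the free cells between `a` and `c` (Finset), `rsgQ D` = their SITES, `rsgLa/Lc` = sites of `Q` in a cell of `a` / `c`, `rsgLd/Lb` = sites of `Q` on the extreme site rows,
`rsgS x D` = THE CLOSED STRIP SYSTEM (class `T` cells clipped to `Q`; `= clAmb x Q` for `T = true`: `rsg_SQ_true`), `rsgCb D` = its cells off `M`, `rsgH0 x D = glH0 ..`.
-/

set_option autoImplicit false
set_option linter.unusedSectionVars false
set_option linter.unusedVariables false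

namespace Claimed.Agent.R291

open Relation Claims Claims.C0467

/-! ## §1 the strip data and the closed strip system (planar, both classes) -/

/-- the sites of the cell of index `z` and class `T` (`true` = up) -/
def rsgCs (T : Bool) (z : TV) : Finset TV := if T then cellV z else cellD z

/-- the indices of the cells of class `T` which meet `Q` -/
def rsgCells (T : Bool) (Q : Finset TV) : Finset TV :=
  if T then latCells Q else Q.image (fun u => u - (1, 0)) ∪ Q.image (fun u => u - (0, 1)) ∪ Q.image (fun u => u - (1, 1))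

/-- the closed system of class `T` on `Q`: all the cells which meet `Q`, clipped (edge convention: parameter `x` for a clipped cell) -/
noncomputable def rsgSQ (x : ℝ) (T : Bool) (Q : Finset TV) : ClSys TV TV where
  A := Q
  C := rsgCells T Q
  sv := fun y => rsgCs T y ∩ Q
  q := fun y => if (rsgCs T y ∩ Q).card = 3 then x ^ 2 else x

/-- a finite box which contains the Euclidean rectangle -/
noncomputable def rsgBox (A B c d : ℤ) : Finset TV := ((Finset.Icc (A - d) (B - c)).image (fun k => k / 2)) ×ˢ Finset.Icc c d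

/-- **strip data**: class, band of index rows `[y0, y1]`, box `xm ≤ X ≤ xM`, the two crossings -/
structure RsgDat where
  T : Bool
  y0 : ℤ
  y1 : ℤ
  xm : ℤ
  xM : ℤ
  a : Set TV
  c : Set TV

open Classical in
/-- the free cells between `a` and `c` -/
noncomputable def rsgM (D : RsgDat) : Finset TV := (rsgBox D.xm D.xM D.y0 D.y1).filter (fun z => z ∈ hxrQ D.y0 D.y1 D.xm D.xM D.a D.c)

/-- THE STRIP: the sites of the free cells -/
noncomputable def rsgQ (D : RsgDat) : Finset TV := (rsgM D).biUnion (rsgCs D.T)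

open Classical in
/-- the sites of `Q` which lie in a cell of `Z` -/
noncomputable def rsgSide (T : Bool) (Q : Finset TV) (Z : Set TV) : Finset TV := Q.filter (fun u => ∃ z ∈ Z, u ∈ rsgCs T z)

noncomputable def rsgLa (D : RsgDat) : Finset TV := rsgSide D.T (rsgQ D) D.a
noncomputable def rsgLc (D : RsgDat) : Finset TV := rsgSide D.T (rsgQ D) D.c
noncomputable def rsgLd (D : RsgDat) : Finset TV := (rsgQ D).filter (fun u => u.2 = D.y0)
noncomputable def rsgLb (D : RsgDat) : Finset TV := (rsgQ D).filter (fun u => u.2 = D.y1 + 1)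

/-- THE CLOSED STRIP SYSTEM -/
noncomputable def rsgS (x : ℝ) (D : RsgDat) : ClSys TV TV := rsgSQ x D.T (rsgQ D)

/-- its boundary cells -/
noncomputable def rsgCb (D : RsgDat) : Finset TV := rsgCells D.T (rsgQ D) \ rsgM D

/-- the history of the strip law -/
noncomputable def rsgH0 (x : ℝ) (D : RsgDat) : ClCon TV TV := glH0 (rsgS x D) (rsgCb D) (rsgLa D) (rsgLc D) (rsgLd D) (rsgLb D)

/-- index distance `≤ 1` -/
def RsgT1 (a c : Set TV) : Prop := ∃ u ∈ a, ∃ v ∈ c, u = v ∨ tscG.Adj u v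

/-- a cell of the band next to both -/
def RsgT2 (y0 y1 : ℤ) (a c : Set TV) : Prop := ∃ y ∈ plsBand y0 y1, (∃ u ∈ a, tscG.Adj y u) ∧ (∃ v ∈ c, tscG.Adj y v)

/-- **the strip estimate in the closed system** (conclusion of `gl_three`) -/
def RsgEst (x : ℝ) (D : RsgDat) : Prop :=
  ∃ Kc : Finset TV, Kc ⊆ rsgM D ∧ 1 / 64 * (rsgS x D).Z ((rsgH0 x D).Holds (rsgS x D)) ≤
    (rsgS x D).N ((rsgH0 x D).Holds (rsgS x D)) (glInd (fun ω => GlJoinC (rsgS x D) (↑Kc ∩ glOn (rsgS x D) 1 ω) (rsgLa D) (rsgLc D)))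

theorem rsg_eqns_cite : True := by
  have := @rsgCs.eq_1
  have := @rsgCells.eq_1
  have := @rsgSQ.eq_1
  have := @rsgBox.eq_1
  have := @rsgM.eq_1
  have := @rsgQ.eq_1
  have := @rsgSide.eq_1
  have := @rsgLa.eq_1
  have := @rsgLc.eq_1
  have := @rsgLd.eq_1
  have := @rsgLb.eq_1
  have := @rsgS.eq_1
  have := @rsgCb.eq_1
  have := @rsgH0.eq_1
  have := @RsgT1.eq_1
  have := @RsgT2.eq_1
  have := @RsgEst.eq_1
  trivial

theorem rsg_SQ_true (x : ℝ) (Q : Finset TV) : rsgSQ x true Q = clAmb x Q := rfl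

theorem rsg_mem_cs {T : Bool} {z v : TV} : v ∈ rsgCs T z ↔
    (T = true ∧ ((v.1 = z.1 ∧ v.2 = z.2) ∨ (v.1 = z.1 + 1 ∧ v.2 = z.2) ∨ (v.1 = z.1 ∧ v.2 = z.2 + 1))) ∨
    (T = false ∧ ((v.1 = z.1 + 1 ∧ v.2 = z.2) ∨ (v.1 = z.1 ∧ v.2 = z.2 + 1) ∨ (v.1 = z.1 + 1 ∧ v.2 = z.2 + 1))) := by
  obtain ⟨i, j⟩ := z
  obtain ⟨p, q⟩ := v
  cases T <;> simp [rsgCs, cellV, cellD, Prod.ext_iff]

theorem rsg_box_mem {A B c d : ℤ} {z : TV} (h : z ∈ rswRect A B c d) : z ∈ rsgBox A B c d := by
  obtain ⟨h1, h2, h3, h4⟩ := h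
  unfold rswX at h1 h2
  refine Finset.mem_product.2 ⟨Finset.mem_image.2 ⟨2 * z.1, Finset.mem_Icc.2 ⟨by omega, by omega⟩, by omega⟩, Finset.mem_Icc.2 ⟨h3, h4⟩⟩

end Claimed.Agent.R291
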