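import Claimed.Agent.R291.Defs.Cut
import Claimed.Agent.R291.Dis.Amb
import Claimed.Agent.R291.Tool.TriSCLat

/-!
# Row 291 (S0539), Defs/Ann : THE PLANAR LAWS AND EVENTS OF THEOREM 2.3      (owner helper121, science chief of ANN; prefix `an` / `An`)

TEX[thm:circuit-input], 09-annulus.tex.   Chain of the proof: `origin/helper121:notes/R291/T23_CHAIN.md`.
Carrier: `ClSys TV TV` of Defs/Cell, vocabulary of Dis/Base (146), Defs/Cut (22), Dis/Amb (62).

* `anE x s I F`, `anP x s I L` : THE intrinsic cut law `P^s_I` on a finite set of sites `I`: only the up-cells inside `I` interact (`clInn x I`), the first spin equals `s` on the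
  layer `latBd I`, the second spin is free.  By `dam_amb_pl` (62) this is the law inside ANY cut set `I` of sign `s` of ANY ambient law.
* `anW x s I L` : the same law seen from the other colour: the SECOND spin equals `s` on the layer, the first spin is free.
* `AnArm x I c n ω` : a chain of NON-plus cells of `I` joins `Λ_n(c)` to the complement of `Λ_{2n}(c)`.
* `anEta x n M = P^+_{Λ_M}[Arm(0,n)]`,   `anU x n M = P^-_{Λ_M}[Sep_+(layer, Λ_n)]`,   `anPi x n m = P^+_{Λ_m}[plus arm from Λ_n to the layer]`.
* `clKap`, `anKer S B W L` : the status kernel given the two spins (a probability kernel for ALL `(B, W)`): `S.wt ⟨B,W,O⟩ = S.wtP B W * ∏ clKap`.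
* `ClCfg.sw` : exchange of the two spins (the statuses are kept: they become the statuses of the other colour).
-/

set_option autoImplicit false

namespace Claimed.Agent.R291

open Claims Claims.C0467

/-- expectation under the intrinsic cut law `P^s_I` -/
noncomputable def anE (x : ℝ) (s : Bool) (I : Finset TV) (F : ClCfg TV TV → ℝ) : ℝ :=
  (clInn x I).E (DamPin (latBd I) s) F

/-- probability under the intrinsic cut law `P^s_I` -/
noncomputable def anP (x : ℝ) (s : Bool) (I : Finset TV) (L : ClCfg TV TV → Prop) : ℝ :=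
  (clInn x I).P (DamPin (latBd I) s) L

/-- exchange of the two spins -/
def ClCfg.sw {V Y : Type} (ω : ClCfg V Y) : ClCfg V Y := ⟨ω.W, ω.B, ω.O⟩

/-- probability under the law on `I` with the SECOND spin equal to `s` on the layer, the first spin free -/
noncomputable def anW (x : ℝ) (s : Bool) (I : Finset TV) (L : ClCfg TV TV → Prop) : ℝ :=
  (clInn x I).P (fun ω => DamPin (latBd I) s ω.sw) L

/-- a chain of non-plus cells of `I` joins `Λ_n(c)` to the complement of `Λ_{2n}(c)` -/
def AnArm (x : ℝ) (I : Finset TV) (c : TV) (n : ℕ) (ω : ClCfg TV TV) : Prop :=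
  ¬ ClSep (clInn x I) true ∅ ω (latBall c n) (I \ latBall c (2 * n))

/-- `η(n, M) = P^+_{Λ_M}[Arm(0, n)]` -/
noncomputable def anEta (x : ℝ) (n M : ℕ) : ℝ := anP x true (latBall 0 M) (AnArm x (latBall 0 M) 0 n)

/-- `U(n, M) = P^-_{Λ_M}[a plus circuit separates the layer from Λ_n]` -/
noncomputable def anU (x : ℝ) (n M : ℕ) : ℝ :=
  anP x false (latBall 0 M) (fun ω => ClSep (clInn x (latBall 0 M)) true ∅ ω (latBd (latBall 0 M)) (latBall 0 n))

/-- `π(n, m) = P^+_{Λ_m}[a chain of plus cells joins Λ_n to the layer]` -/
noncomputable def anPi (x : ℝ) (n m : ℕ) : ℝ :=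
  anP x true (latBall 0 m) (fun ω => CuCon (clInn x (latBall 0 m)) true ω (latBall 0 n) (latBd (latBall 0 m)))

/-- the status kernel of one cell given the spins: `bc` = "B constant", `wc` = "W constant", `o` = "open" -/
def clKap (q : ℝ) (bc wc o : Prop) [Decidable bc] [Decidable wc] [Decidable o] : ℝ :=
  if bc then (if wc then (if o then q else 1 - q) else (if o then 1 else 0)) else (if o then 0 else 1)

section abstract

variable {V Y : Type} [DecidableEq V] [DecidableEq Y]

open Classical in
/-- probability of `L` given the two spins -/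
noncomputable def anKer (S : ClSys V Y) (B W : Finset V) (L : ClCfg V Y → Prop) : ℝ :=
  ∑ O ∈ S.C.powerset, (∏ y ∈ S.C, clKap (S.q y) (ClConst B (S.sv y)) (ClConst W (S.sv y)) (y ∈ O)) *
    (if L ⟨B, W, O⟩ then 1 else 0)

/-- a constraint which sees the two spins only -/
def AnSpin (K : ClCfg V Y → Prop) : Prop := ∀ ω ω' : ClCfg V Y, ω.B = ω'.B → ω.W = ω'.W → (K ω ↔ K ω')

end abstract

/-- the equation lemmas of the definitions of this file are generated HERE -/
theorem an_defs_eqns_cite : True := by
  have := @anE.eq_1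
  have := @anP.eq_1
  have := @ClCfg.sw.eq_1
  have := @anW.eq_1
  have := @AnArm.eq_1
  have := @anEta.eq_1
  have := @anU.eq_1
  have := @anPi.eq_1
  have := @clKap.eq_1
  have := @anKer.eq_1
  have := @AnSpin.eq_1
  trivial

end Claimed.Agent.R291
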