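import Claimed.Agent.R291.Ann.Model

/-!
# Row 291 (S0539), Defs/Ren : THE INTERFACES OF A5 (RENORMALISATION)      (owner helper92 for `RnHPd`, `RnHP`; design helper12; prefix `rn` / `Rn`)

TEX 09-annulus l.905-916 ("Pushing gives the renormalization inequality (23)").   Design: 12's blocks B1-B6 (06:32Z), proof note `origin/helper144:notes/R291/ann_A5_144.md`.
* `RnHPd x s l t` = **(HP)**, half-plane push of the sign `s` in the direction `l` (normal coordinate), `t` = transverse coordinate: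
  ANY finite `D ⊆ {c ≤ l}` of transverse extent `≤ C H`, ANY legal history `K` (no equality edge) inside `{c + H ≤ l}`, feasible:   `P^s_D(K)[ Sep^s_D( {l ≤ c + H/10}, {c + H/5 ≤ l} ) ] ≥ δ(C)`.
  PRODUCER: B5 (278, `Ann/RenHP.lean`): ONE `dis_order` in the capped cylinder against the mixed cylinder + `exit_ann_cyl` (`SdCylM`: bands in the index rows `≤ 0.2 H`; `SdCyl` + flip of the first spin for the opposite direction).
  CONSUMER: B2 (92, `Ann/RenPush.lean`).
* `RnHist`, `rnBx`, `RnFeas`, `RnVal`, `RnPush1` = vocabulary and output of B2 (consumers B3 = 264, B4 = 115).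
* `RnHP x` = the four directions `b, -b, a, -a` (swap `(a,b) ↦ (b,a)` preserves the up-cells) and the two signs (flip of the first spin).
-/

set_option autoImplicit false

namespace Claimed.Agent.R291

open Claims Claims.C0467

/-- **(HP)** in the direction `l` (transverse coordinate `t`), sign `s` -/
def RnHPd (x : ℝ) (s : Bool) (l t : TV → ℤ) : Prop :=
  ∀ C : ℕ, ∃ δ : ℝ, 0 < δ ∧ ∃ H₀ : ℕ, ∀ (H : ℕ) (c : ℤ) (D : Finset TV) (K : ClCon TV TV), H₀ ≤ H →
    (∀ u ∈ D, c ≤ l u) → (∀ u ∈ D, ∀ v ∈ D, t u - t v ≤ C * H) →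
    ClLegal (clInn x D) K → K.Eq = ∅ → K.In (clInn x D) (D.filter (fun u => c + H ≤ l u)) →
    0 < (clInn x D).Z (fun ω => CuPin s (amLay D) ω ∧ K.Holds (clInn x D) ω) →
    δ ≤ amP x s D (K.Holds (clInn x D)) (fun ω => ClSep (clInn x D) s ∅ ω
      (D.filter (fun u => l u ≤ c + (H / 10 : ℕ))) (D.filter (fun u => c + (H / 5 : ℕ) ≤ l u)))

/-- **(HP)**: four directions, two signs -/
def RnHP (x : ℝ) : Prop :=
  ∀ s : Bool, RnHPd x s (fun u => u.2) (fun u => u.1) ∧ RnHPd x s (fun u => -u.2) (fun u => u.1) ∧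
    RnHPd x s (fun u => u.1) (fun u => u.2) ∧ RnHPd x s (fun u => -u.1) (fun u => u.2)

/-! ### outputs of B2 (92) -/

/-- `K` is a legal planar history inside `b`: no label and no equality of the second spin; an observed cell has its three first spins pinned -/
structure RnHist (K : ClCon TV TV) (b : Finset TV) : Prop where
  wp : K.Wp = ∅
  wm : K.Wm = ∅
  eq : K.Eq = ∅
  bp : K.Bp ⊆ b
  bm : K.Bm ⊆ b
  op : K.Op ⊆ latCellsIn b
  om : K.Om ⊆ latCellsIn b
  cl : K.Cl ⊆ latCellsIn b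
  full : ∀ y ∈ K.Op ∪ K.Om ∪ K.Cl, cellV y ⊆ K.Bp ∪ K.Bm

/-- the box `u + [-r, r]^2` in the coordinates `(a, b)` -/
noncomputable def rnBx (u : TV) (r : ℤ) : Finset TV := amBox (u.1 - r) (u.1 + r) (u.2 - r) (u.2 + r)

/-- `P^s_D(K)` is a law -/
def RnFeas (x : ℝ) (s : Bool) (D : Finset TV) (K : ClCon TV TV) : Prop :=
  0 < (clInn x D).Z (fun ω => CuPin s (amLay D) ω ∧ K.Holds (clInn x D) ω)

/-- **the value of a region**: for EVERY domain `b ⊆ D ⊆ Dm` (feasible):   `P^s_D(K)[ Sep^s_D(D \ G, A) ] ≥ p`      (`b` = obstacles, `G` = goal region, `A` = protected set) -/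
def RnVal (x : ℝ) (s : Bool) (K : ClCon TV TV) (b G A Dm : Finset TV) (p : ℝ) : Prop :=
  ∀ D : Finset TV, b ⊆ D → D ⊆ Dm → RnFeas x s D K →
    p ≤ amP x s D (K.Holds (clInn x D)) (fun ω => ClSep (clInn x D) s ∅ ω (D \ G) A)

/-- **(PUSH1)** = (SEP) for one box = (FAV) (take `K = clFree`, `s = true`): both signs, every legal history inside `Bx(u, R)`, every domain `Bx(u, R) ⊆ D ⊆ Bx(u, C0 R)`:
`P^s_D(K)[ Sep^s_D(D \ Bx(u, 2R), Bx(u, R)) ] ≥ c(C0)` -/
def RnPush1 (x : ℝ) : Prop :=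
  ∀ C0 : ℕ, ∃ c : ℝ, 0 < c ∧ ∃ R0 : ℕ, ∀ (s : Bool) (R : ℕ) (u : TV) (K : ClCon TV TV), R0 ≤ R → RnHist K (rnBx u R) →
    RnVal x s K (rnBx u R) (rnBx u (2 * R)) (rnBx u R) (rnBx u (C0 * R)) c

/-! ### interface of B4 (`Ann/RenTop.lean`, helper115): the local event, the output of B3 (SEP2) -/

/-- THE LOCAL CIRCUIT EVENT: no chain of non-plus cells INSIDE `Bx(u, 3r)` joins the layer of `Bx(u, 3r)` to `Bx(u, r)` (increasing, local in `Bx(u, 3r)`) -/
def RnX (x : ℝ) (u : TV) (r : ℕ) (ω : ClCfg TV TV) : Prop :=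
  ClSep (clInn x (rnBx u (3 * r))) true ∅ ω (amLay (rnBx u (3 * r))) (rnBx u r)

/-- **(SEP2)** = Step 2 (output of B3, 264): two ALIGNED boxes `Bx((∓g,0), r)`, `g ≥ κ r` (`κ` = the aspect constant of the PRODUCER), minus boundary conditions on ANY `D` with `Bx(0,4g) ⊆ D ⊆ Bx(0,C₀ r)`,
`X₁, X₂` ANY increasing events local in the two boxes: up to a constant the two events are independent and see minus boundary conditions at distance `2g`.
PLAN (144 Sec. 4+6 / 12): condition on the full history of the two boxes (`rn_cond`), order (history `≤` all plus), pushes to the tube, corridor(s) in the gap, FKG: `Sep^-` has probability `≥ c`; search of sign minus from outside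
(+ the middle column): the law off the invaded set is `P^-` on `D₁ ⊔ D₂` (no common cell): product (`rn_split`); `am_pl_dom_minus` (`D_i ⊆ Bx(z_i, 2g)`, `X_i` increasing). -/
def RnSep2 (x : ℝ) : Prop :=
  ∃ κ : ℕ, 1 ≤ κ ∧ ∀ C₀ : ℕ, ∃ c : ℝ, 0 < c ∧ ∃ r₀ : ℕ, ∀ (r g : ℕ) (D : Finset TV) (X₁ X₂ : ClCfg TV TV → Prop), r₀ ≤ r → κ * r ≤ g →
    rnBx 0 (4 * g) ⊆ D → D ⊆ rnBx 0 (C₀ * r) →
    ClMonoP (clInn x (rnBx (-(g : ℤ), 0) r)) X₁ → ClLocP (rnBx (-(g : ℤ), 0) r) (latCellsIn (rnBx (-(g : ℤ), 0) r)) X₁ →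
    ClMonoP (clInn x (rnBx ((g : ℤ), 0) r)) X₂ → ClLocP (rnBx ((g : ℤ), 0) r) (latCellsIn (rnBx ((g : ℤ), 0) r)) X₂ →
    c * amP x false D (fun _ => True) (fun ω => X₁ ω ∧ X₂ ω) ≤
      amP x false (rnBx (-(g : ℤ), 0) (2 * g)) (fun _ => True) X₁ * amP x false (rnBx ((g : ℤ), 0) (2 * g)) (fun _ => True) X₂

/-- the equation lemmas of the definitions of this file are generated HERE -/
theorem rn_defs_eqns_cite : True := by
  have := @RnX.eq_1
  have := @RnSep2.eq_1
  have := @RnHPd.eq_1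
  have := @RnHP.eq_1
  have := @rnBx.eq_1
  have := @RnFeas.eq_1
  have := @RnVal.eq_1
  have := @RnPush1.eq_1
  trivial

/-! ### interface of B6 (`Ann/RenCor.lean`, helper144): the corridor -/

/-- **(COR)**, corridor of the sign `s` (owner helper144; design 12 + 144), lengthwise coordinate `l`, transverse coordinate `t`:
ANY finite `D ⊆ {c ≤ t ≤ c + r}`, ANY legal history `K` inside `{l ≤ p} ∪ {p + 6 r ≤ l}`, feasible:   `P^s_D(K)[ Sep^s_D( {l ≤ p}, {p + 6 r ≤ l} ) ] ≥ δ`.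
PRODUCER: B6 (144, `Ann/RenCor.lean`): ONE `dis_order` in a planar ambient box against the sea history of the straight strip `5 (r + 2) × (r + 2)`, ports (`prc_two_amb`), straight LSS of A1 (`gl_three`), J1 (`pls_rect`).
CONSUMER: B3 (264, `Ann/RenSep.lean`). -/
def RnCord (x : ℝ) (s : Bool) (l t : TV → ℤ) : Prop :=
  ∃ δ : ℝ, 0 < δ ∧ ∃ r₀ : ℕ, ∀ (r : ℕ) (p c : ℤ) (D : Finset TV) (K : ClCon TV TV), r₀ ≤ r →
    (∀ u ∈ D, c ≤ t u ∧ t u ≤ c + r) → RnHist K (D.filter (fun u => l u ≤ p ∨ p + 6 * r ≤ l u)) → RnFeas x s D K →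
    δ ≤ amP x s D (K.Holds (clInn x D)) (fun ω => ClSep (clInn x D) s ∅ ω
      (D.filter (fun u => l u ≤ p)) (D.filter (fun u => p + 6 * r ≤ l u)))

/-- **(COR)**: two orientations, two signs -/
def RnCor (x : ℝ) : Prop :=
  ∀ s : Bool, RnCord x s (fun u => u.1) (fun u => u.2) ∧ RnCord x s (fun u => u.2) (fun u => u.1)

/-- the equation lemmas of `RnCord`, `RnCor` are generated HERE -/
theorem rnc_defs_eqns_cite : True := by
  have := @RnCord.eq_1
  have := @RnCor.eq_1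
  trivial

end Claimed.Agent.R291
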