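import Claimed.Agent.R291.Defs.Lat

/-!
# Row 291 (S0539), Defs/Ht : WEIGHTED LIPSCHITZ HEIGHT LAWS WITH BOUNDARY VALUES      (owner helper115; prefix `ht`)

Heights are TOTAL functions `h : TV → ℤ`.  A finite-volume law has a finite FREE set `A` and a boundary function
`b : TV → ℤ` (only its values on `latOut A` matter): `h = b` off `A`, `h` is 1-Lipschitz on every edge meeting `A`, weight
`x ^ (number of unequal edges meeting A)`.  This is the Gibbs specification of the paper ("ordinary weighted height Gibbs law").
All domains share ONE configuration type, so restriction / DLR / couplings need no casts.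

* `HtAdm A b h`, `htCfg A b : Finset (TV → ℤ)`, `htN A h`, `htWt x A h`, `htZ x A b`, `htE x A b G`, `htP x A b K`, `htEc`
* THE FROZEN LAW (bridge owned by unit FRZ, helper168): for every finite `F`
  `lipschitzExpect x δ σ F f φ = htE x (latInt F) 0 (fun h => φ (latPair δ f (latInt F) h / σ))`.
* `htPl x G` = plane expectation of a local GRADIENT observable `G` (`G (h + c) = G h`): limit of zero boundary hexagons.
* `HtAdmF G o h`, `htCfgF`, `htNF`, `htEF x G o Φ` = FREE anchored law on `G` (edges inside `G` only, `h o = 0`).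
* locality: `HtLoc S G` (`G` depends on `h` on `S` only), `HtGrad G` (invariance under constants).
-/

set_option autoImplicit false

namespace Claimed.Agent.R291

open Claims Claims.C0467 Filter Topology

/-- `h` is admissible for the free set `A` and the boundary function `b` -/
def HtAdm (A : Finset TV) (b h : TV → ℤ) : Prop :=
  (∀ u, u ∉ A → h u = b u) ∧ ∀ u ∈ A, ∀ d ∈ latDirs, |h (u + d) - h u| ≤ 1

open Classical in
/-- the finite set of admissible heights (`ht_adm_finite`: the set is always finite) -/
noncomputable def htCfg (A : Finset TV) (b : TV → ℤ) : Finset (TV → ℤ) :=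
  if hf : {h | HtAdm A b h}.Finite then hf.toFinset else ∅

/-- number of unequal edges meeting `A` -/
def htN (A : Finset TV) (h : TV → ℤ) : ℕ :=
  ∑ p ∈ latE A, if h p.1 ≠ h (p.1 + p.2) then 1 else 0

/-- weight -/
noncomputable def htWt (x : ℝ) (A : Finset TV) (h : TV → ℤ) : ℝ := x ^ htN A h

/-- partition function -/
noncomputable def htZ (x : ℝ) (A : Finset TV) (b : TV → ℤ) : ℝ := ∑ h ∈ htCfg A b, htWt x A h

/-- expectation (`0` when the boundary function is infeasible) -/
noncomputable def htE (x : ℝ) (A : Finset TV) (b : TV → ℤ) (G : (TV → ℤ) → ℝ) : ℝ :=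
  (∑ h ∈ htCfg A b, htWt x A h * G h) / htZ x A b

open Classical in
/-- probability of an event -/
noncomputable def htP (x : ℝ) (A : Finset TV) (b : TV → ℤ) (K : (TV → ℤ) → Prop) : ℝ :=
  htE x A b (fun h => if K h then 1 else 0)

open Classical in
/-- conditional expectation given an event -/
noncomputable def htEc (x : ℝ) (A : Finset TV) (b : TV → ℤ) (K : (TV → ℤ) → Prop) (G : (TV → ℤ) → ℝ) : ℝ :=
  htE x A b (fun h => if K h then G h else 0) / htP x A b K

/-- `G` depends only on the heights on `S` -/
def HtLoc (S : Finset TV) (G : (TV → ℤ) → ℝ) : Prop :=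
  ∀ h h' : TV → ℤ, (∀ u ∈ S, h u = h' u) → G h = G h'

/-- `G` is a gradient observable -/
def HtGrad (G : (TV → ℤ) → ℝ) : Prop := ∀ (h : TV → ℤ) (c : ℤ), G (fun u => h u + c) = G h

/-- `G` is increasing -/
def HtMono (G : (TV → ℤ) → ℝ) : Prop := ∀ h h' : TV → ℤ, (∀ u, h u ≤ h' u) → G h ≤ G h'

/-- plane expectation of a local gradient observable: limit of the zero boundary laws in large hexagons -/
noncomputable def htPl (x : ℝ) (G : (TV → ℤ) → ℝ) : ℝ :=
  limUnder atTop (fun R : ℕ => htE x (latBall 0 R) 0 G)

/-- plane covariance form on arrays (meaningful on arrays of total mass zero) -/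
noncomputable def htGam (x : ℝ) (a a' : TV →₀ ℝ) : ℝ := htPl x (fun h => latArr a h * latArr a' h)

/-! ### the free anchored law (paper: free ambient increment law with one height anchored) -/

/-- `h` is admissible for the FREE anchored problem on `G`: 1-Lipschitz on the edges inside `G`, `h o = 0`, and (dummy) `h = 0` off `G` -/
def HtAdmF (G : Finset TV) (o : TV) (h : TV → ℤ) : Prop :=
  (∀ u, u ∉ G → h u = 0) ∧ h o = 0 ∧ ∀ p ∈ latEin G, |h (p.1 + p.2) - h p.1| ≤ 1

open Classical in
/-- the admissible heights of the free anchored problem (finite when `G` is connected and `o ∈ G`) -/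
noncomputable def htCfgF (G : Finset TV) (o : TV) : Finset (TV → ℤ) :=
  if hf : {h | HtAdmF G o h}.Finite then hf.toFinset else ∅

/-- number of unequal edges inside `G` -/
def htNF (G : Finset TV) (h : TV → ℤ) : ℕ :=
  ∑ p ∈ latEin G, if h p.1 ≠ h (p.1 + p.2) then 1 else 0

/-- expectation in the free anchored problem -/
noncomputable def htEF (x : ℝ) (G : Finset TV) (o : TV) (Φ : (TV → ℤ) → ℝ) : ℝ :=
  (∑ h ∈ htCfgF G o, x ^ htNF G h * Φ h) / ∑ h ∈ htCfgF G o, x ^ htNF G h

/-- the frozen law in the vocabulary of this file -/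
noncomputable def htFz (x : ℝ) (F : Finset TV) (G : (TV → ℤ) → ℝ) : ℝ := htE x (latInt F) 0 G

/-- the smeared field of the frozen law -/
noncomputable def htSm (δ : ℝ) (F : Finset TV) (f : ℝ × ℝ → ℝ) (h : TV → ℤ) : ℝ := latPair δ f (latInt F) h

/-- the equation lemmas of the definitions of this file are generated HERE (RULES.md, rule 6) -/
theorem ht_defs_eqns_cite : True := by
  have := @HtAdm.eq_1
  have := @htCfg.eq_1
  have := @htN.eq_1
  have := @htWt.eq_1
  have := @htZ.eq_1
  have := @htE.eq_1
  have := @htP.eq_1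
  have := @htEc.eq_1
  have := @HtLoc.eq_1
  have := @HtGrad.eq_1
  have := @HtMono.eq_1
  have := @htPl.eq_1
  have := @htGam.eq_1
  have := @HtAdmF.eq_1
  have := @htCfgF.eq_1
  have := @htNF.eq_1
  have := @htEF.eq_1
  have := @htFz.eq_1
  have := @htSm.eq_1
  trivial

end Claimed.Agent.R291
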