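import Claimed.Agent.R291.Defs.Ht
import Claimed.Agent.R291.Tool.TriSCLat

/-!
# Row 291 (S0539), Defs/Mom : VOCABULARY OF UNIT MOM (Sec. 3, 03-moments.tex)      (owner helper122; prefix `mom`, `Mom`)

Design note: `origin/helper122:notes/R291/sec3_122.md`.      HEIGHT-ONLY: no cell, no status, no curve, no exploration.

* `MomCo F`            the finite set `F` has no hole: its complement is connected in the triangular lattice (`TscConn tscG`)
* `MomSm z0 a A w`     TEX (moments:weights): `w` is a smearing of radius `a` (hex norm), centre `z0`, weight bound `A`;  the statistic is `latArr w h`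
* `momB k`             first Gray spin of the height `k` is PLUS (`k mod 4 ∈ {0,1}`);  the second spin of `k` is `momB (k + 1)`
* `MomWW h D`          every edge leaving `D` is a W-wall with `B = +` on both sides;   `MomBW h D` every edge leaving `D` is a B-wall
* `MomBad F z r h`     TEX l.126-150 the ordered pair of walls around `latBall z r` (event `𝒜` of the proof of lem:shell-moments)
* `MomCirc z r1 r2 h`  a connected set of sites with constant first spin in the annulus which blocks every path across the annulus
* `momC0 F t h`        the `t`-cluster of the complement of `F`;   `momD F t h z` the FIRST DOMAIN of `z` = component of `z` off that cluster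
* `MomFst F t z D e h` the first domain of `z` is the finite set `D ∋ z`, and `h = t + e` on its inner layer `latBd D`
-/

set_option autoImplicit false

namespace Claimed.Agent.R291

open Claims Claims.C0467

/-- `F` has no hole: the complement is connected -/
def MomCo (F : Finset TV) : Prop := TscConn tscG ((F : Set TV)ᶜ)

/-- TEX (moments:weights): smearing of radius `a`, centre `z0`, weight bound `A` (hex norm) -/
structure MomSm (z0 : TV) (a : ℕ) (A : ℝ) (w : TV →₀ ℝ) : Prop where
  supp : w.support ⊆ latBall z0 a
  l1 : ∑ u ∈ w.support, |w u| ≤ A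
  sup : ∀ u, |w u| * (a : ℝ) ^ 2 ≤ A

/-- the first Gray spin of the height `k` is plus -/
def momB (k : ℤ) : Prop := k % 4 = 0 ∨ k % 4 = 1

instance momBDec : DecidablePred momB := fun k => by unfold momB; infer_instance

/-- every edge leaving `D` is a W-wall with `B = +` on both sides -/
def MomWW (h : TV → ℤ) (D : Finset TV) : Prop :=
  ∀ u ∈ D, ∀ v, v ∉ D → triAdj u v → momB (h u) ∧ momB (h v) ∧ h u ≠ h v

/-- every edge leaving `D` is a B-wall -/
def MomBW (h : TV → ℤ) (D : Finset TV) : Prop :=
  ∀ u ∈ D, ∀ v, v ∉ D → triAdj u v → ¬ (momB (h u) ↔ momB (h v))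

/-- a B-wall domain around `latBall z r` inside `F` -/
def MomBad1 (F : Finset TV) (z : TV) (r : ℕ) (h : TV → ℤ) : Prop :=
  ∃ D' : Finset TV, latBall z r ⊆ D' ∧ D' ⊆ F ∧ MomBW h D'

/-- the ordered pair of walls: a hole-free W-wall domain with `B = +`, containing a B-wall domain around `latBall z r` -/
def MomBad (F : Finset TV) (z : TV) (r : ℕ) (h : TV → ℤ) : Prop :=
  ∃ D : Finset TV, D ⊆ F ∧ MomCo D ∧ MomWW h D ∧ MomBad1 D z r h

/-- a connected set of sites with constant first spin inside `latBall z r2 \ latBall z r1` which meets every path from `latBall z r1` to the complement of `latBall z r2` -/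
def MomCirc (z : TV) (r1 r2 : ℕ) (h : TV → ℤ) : Prop :=
  ∃ S : Set TV, (∀ u ∈ S, u ∈ latBall z r2 ∧ u ∉ latBall z r1) ∧ TscConn tscG S ∧
    (∀ u ∈ S, ∀ v ∈ S, (momB (h u) ↔ momB (h v))) ∧
    ∀ (Q : Set TV) (a b : TV), a ∈ latBall z r1 → b ∉ latBall z r2 → TscR tscG Q a b → (Q ∩ S).Nonempty

/-- the `t`-cluster of the complement of `F` -/
def momC0 (F : Finset TV) (t : ℤ) (h : TV → ℤ) : Set TV :=
  {u | ∃ v, v ∉ F ∧ TscR tscG {y | h y = t} v u}

/-- the first domain of `z`: the component of `z` off the `t`-cluster of the complement (empty if `z` is in the cluster) -/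
def momD (F : Finset TV) (t : ℤ) (h : TV → ℤ) (z : TV) : Set TV := tscComp tscG (momC0 F t h)ᶜ z

/-- the first domain of `z` is `D`, with height `t + e` on its inner layer -/
def MomFst (F : Finset TV) (t : ℤ) (z : TV) (D : Finset TV) (e : ℤ) (h : TV → ℤ) : Prop :=
  z ∈ D ∧ momD F t h z = (D : Set TV) ∧ ∀ u ∈ latBd D, h u = t + e

/-- `ψ` does not read the heights on `D` -/
def HtOff (D : Finset TV) (ψ : (TV → ℤ) → ℝ) : Prop :=
  ∀ h h' : TV → ℤ, (∀ u, u ∉ D → h u = h' u) → ψ h = ψ h'

end Claimed.Agent.R291
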