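import Claimed.Agent.R291.Defs.Mom

/-!
# Row 291 (S0539), Defs/BdySyn : SYNTHETIC LAWS AND CROSSING EVENTS OF UNIT BDY (Sec. 6, 06-boundary.tex)      (owner helper128, HEAD BDY; prefix `bdy`, `Bdy`)
(The interface `BdyArch`, `BdyCol`, `BdyNegX` is in Defs/Bdy, owner helper176.)

Design notes: `origin/helper173:notes/R291/sec6b_173.md` (R1-R6, ratified), `origin/helper176:notes/R291/sec6b_176.md`, `origin/helper128:notes/R291/sec6_128.md` + `syn_128.md`.
HEIGHT-ONLY: no cell, no status, no curve.  The cell representation appears only INSIDE the proofs of the three exits `exit_bdy_strip`, `exit_bdy_bulk`, `exit_bdy_patch`.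

* `BdyLoX A k O Z h`   a walk of sites of `A` of height `≤ k` from `O` to `Z` (both ends included)            DECREASING in `h`
* `BdyHiX A k O Z h`   a walk of sites of `A` of height `≥ k` from `O` to `Z`                                  INCREASING in `h`
* `BdyPk P h`          `h ∈ {-1, 0}` on `P`  (second Gray spin `W = +`, anchored pair)
* `bdySynE x A P G`    THE SYNTHETIC LAW  TEX[lem:synthetic-trace]:  free set `A ∪ P` (`P` = POCKET, disjoint from `A`), flat trace `-1` off `A ∪ P`, conditioned on `BdyPk P`.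
                       In spin language: `W = +` on the whole complement of `A`, `B = -` off `A ∪ P`, `B` FREE on the pocket.
                       By DLR it is a mixture of the laws `htE x A k` over traces `k ∈ {-1,0}` on `latOut A ∩ P`, `k = -1` on `latOut A \ P`  (`bdy_syn_dom` in Bdy/Syn).
-/

set_option autoImplicit false

namespace Claimed.Agent.R291

open Claims Claims.C0467

/-- a walk of sites of `A` of height `≤ k` from `O` to `Z` -/
def BdyLoX (A : Finset TV) (k : ℤ) (O Z : Set TV) (h : TV → ℤ) : Prop :=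
  ∃ a ∈ O, ∃ b ∈ Z, a ∈ A ∧ h a ≤ k ∧ TscR tscG {u | u ∈ A ∧ h u ≤ k} a b

/-- a walk of sites of `A` of height `≥ k` from `O` to `Z` -/
def BdyHiX (A : Finset TV) (k : ℤ) (O Z : Set TV) (h : TV → ℤ) : Prop :=
  ∃ a ∈ O, ∃ b ∈ Z, a ∈ A ∧ k ≤ h a ∧ TscR tscG {u | u ∈ A ∧ k ≤ h u} a b

/-- `h ∈ {-1, 0}` on `P` -/
def BdyPk (P : Finset TV) (h : TV → ℤ) : Prop := ∀ u ∈ P, h u = -1 ∨ h u = 0

/-- the synthetic law: free set `A ∪ P`, flat trace `-1`, conditioned on the pair `{-1,0}` on the pocket `P` -/
noncomputable def bdySynE (x : ℝ) (A P : Finset TV) (G : (TV → ℤ) → ℝ) : ℝ :=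
  htEc x (A ∪ P) (fun _ => -1) (BdyPk P) G

open Classical in
/-- probability under the synthetic law -/
noncomputable def bdySynP (x : ℝ) (A P : Finset TV) (K : (TV → ℤ) → Prop) : ℝ :=
  bdySynE x A P (fun h => if K h then 1 else 0)

/-- the sites of `A` adjacent to a site of `S` -/
def bdyNbr (S : Finset TV) : Set TV := {u | ∃ v ∈ S, triAdj v u}

/-- the uniform average of the heights on `latBall z s` -/
noncomputable def bdyAvg (z : TV) (s : ℕ) (h : TV → ℤ) : ℝ :=
  (∑ u ∈ latBall z s, (h u : ℝ)) / ((latBall z s).card : ℝ)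

end Claimed.Agent.R291
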