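import Claimed.Agent.R291.Defs.Lim

/-!
# Row 291 (S0539), Defs/Bdy : VOCABULARY AND INTERFACE OF UNIT BDY (06-boundary.tex)      (owner helper176, under head helper128; prefix `bdy`, `Bdy`)

Design notes: `origin/helper128:notes/R291/sec6_128.md`, `origin/helper173:notes/R291/sec6b_173.md`, `origin/helper176:notes/R291/sec6b_176.md`.
No circuit, no artificial exterior, no exploration crosses this interface: only WALKS OF NEGATIVE (POSITIVE) SITES.

* `bdyConn adj p u v`     `v` is joined to `u` by an `adj`-walk all of whose sites (both ends included) satisfy `p`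
* `BdyNegX adj h A T`     a walk of sites of height `≤ -1` joins `T` to `A`;      `BdyPosX` : height `≥ 1`
* `BdyLip adj h`, `bdyFlip adj h u` (flip of the negative cluster of `u`), `bdyAdj Λ` (lattice edges meeting the free set `Λ`)
* `bdyIn δ p r`           sites whose centre lies in the OPEN Euclidean disc of radius `r` about `p`;   `bdyOut δ p R` : centre off the open disc of radius `R`
* `BdyArch x D δ F`       **[ARCH]** TEX[prop:boundary-arch] in BLOCKING form, qualitative, pointwise in `p`      (producers 128/173; consumer 176)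
* `BdyCol x D δ F`        **[COL]**  TEX[prop:bracket-collapse], upper bracket, deterministic traces                 (producer 176; consumer: glue of `exit_lim_brk`, 34)
  ([BD] TEX[prop:boundary-moments] is `LimBD` of Defs/Lim.)
-/

set_option autoImplicit false

namespace Claimed.Agent.R291

open Filter Topology
open Claims Claims.C0467

section Abstract

variable {V : Type*}

/-- `v` is joined to `u` by an `adj`-path all of whose sites (both ends included) satisfy `p`. -/
def bdyConn (adj : V → V → Prop) (p : V → Prop) (u v : V) : Prop :=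
  p u ∧ Relation.ReflTransGen (fun a b => adj a b ∧ p b) u v

/-- heights which are 1-Lipschitz along `adj`. -/
def BdyLip (adj : V → V → Prop) (h : V → ℤ) : Prop := ∀ a b, adj a b → |h a - h b| ≤ 1

/-- there is a path of sites of height `≤ -1` from `T` to `A`. -/
def BdyNegX (adj : V → V → Prop) (h : V → ℤ) (A T : Set V) : Prop :=
  ∃ u ∈ T, ∃ v ∈ A, bdyConn adj (fun a => h a ≤ -1) u v

/-- there is a path of sites of height `≥ 1` from `T` to `A`. -/
def BdyPosX (adj : V → V → Prop) (h : V → ℤ) (A T : Set V) : Prop :=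
  ∃ u ∈ T, ∃ v ∈ A, bdyConn adj (fun a => 1 ≤ h a) u v

open Classical in
/-- flip the sign of the negative cluster of `u`. -/
noncomputable def bdyFlip (adj : V → V → Prop) (h : V → ℤ) (u : V) : V → ℤ :=
  fun v => if bdyConn adj (fun a => h a ≤ -1) u v then - h v else h v

end Abstract

/-- the edges of the height problem with free set `Λ`: lattice edges meeting `Λ`. -/
def bdyAdj (Λ : Finset TV) (a b : TV) : Prop := triAdj a b ∧ (a ∈ Λ ∨ b ∈ Λ)

/-- sites whose centre lies in the open Euclidean disc of radius `r` about `p` -/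
def bdyIn (δ : ℝ) (p : ℝ × ℝ) (r : ℝ) : Set TV := {u | sqDist (triPos δ u) p < r ^ 2}

/-- sites whose centre lies off the open Euclidean disc of radius `R` about `p` -/
def bdyOut (δ : ℝ) (p : ℝ × ℝ) (R : ℝ) : Set TV := {u | R ^ 2 ≤ sqDist (triPos δ u) p}

/-- **[ARCH]** TEX[prop:boundary-arch], blocking form.  Boundary function `t ∈ {-1,0}` (ALL sites off the free set), `t = 0` at the sites of the annulus.
The threshold in `n` does NOT depend on `t`.  The walks may use any site of height `≤ -1` (a non free site of the annulus has height `t = 0`, so inside the annulus they are walks of free sites).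
An infeasible `t` is harmless (`htP = 0`).  Monotone in `r` (smaller is weaker) and in `R`. -/
def BdyArch (x : ℝ) (D : Set (ℝ × ℝ)) (δ : ℕ → ℝ) (F : ℕ → Finset TV) : Prop :=
  ∀ p ∈ frontier D, ∀ R : ℝ, 0 < R → ∀ ε : ℝ, 0 < ε → ∃ r : ℝ, 0 < r ∧ r < R ∧ ∀ᶠ n in atTop, ∀ t : TV → ℤ,
    (∀ u, t u = -1 ∨ t u = 0) → (∀ u, u ∉ bdyIn (δ n) p r → u ∉ bdyOut (δ n) p R → t u = 0) →
    htP x (latInt (F n)) t (fun h => BdyNegX triAdj h (bdyOut (δ n) p R) (bdyIn (δ n) p r)) ≤ ε

/-- **[COL]** TEX[prop:bracket-collapse] for the upper bracket, one deterministic trace at a time: `t ∈ {0,1}`, `t = 0` off the discs of radius `r` about the finitely many window centres.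
The threshold in `n` does not depend on `t`, so the bound passes to every mixture over such traces. -/
def BdyCol (x : ℝ) (D : Set (ℝ × ℝ)) (δ : ℕ → ℝ) (F : ℕ → Finset TV) : Prop :=
  ∀ P : Finset (ℝ × ℝ), (∀ c ∈ P, c ∈ frontier D) → ∀ ψ : ℝ × ℝ → ℝ, WkTest D ψ → (∀ y, 0 ≤ ψ y) → ∀ η : ℝ, 0 < η →
    ∃ r : ℝ, 0 < r ∧ ∀ᶠ n in atTop, ∀ t : TV → ℤ, (∀ u, t u = 0 ∨ t u = 1) → (∀ u, (∀ c ∈ P, u ∉ bdyIn (δ n) c r) → t u = 0) →
      htE x (latInt (F n)) t (fun h => htSm (δ n) (F n) ψ h) ≤ η

end Claimed.Agent.R291
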