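import Claimed.Agent.R291.Defs.Bdy
import Claimed.Agent.R291.Defs.BdySyn

/-!
# Row 291 (S0539), Defs/BdyGeo : THE DETERMINISTIC GEOMETRY CONSUMED BY [ARCH]      (owner helper173; producers of `exit_bdy_geo`: helper25, helper119, helper217)

TEX[prop:boundary-arch] l.540-682, design `origin/helper173:notes/R291/sec6b_173.md` + `sec6c_173.md` (v2).      `A = latInt (F n)` = free set, `c ∉ A` = a site near the boundary point `p`.
FRAME  `bdyFr c k u = latRot^[k] (u - c)` = coordinates `(X, Y)`: rotation about `c` such that the lattice direction `(0,1)` of the frame is within 30 degrees of the OUTER normal at `p`.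
In the frame the boundary is (up to the band) the line `Y = - s X`, `0 ≤ s ≤ 1`, the exterior is ABOVE it, a boundary site of hexagonal radius `r` has `|X| = r`;   LEFT = `X < 0`, RIGHT = `X > 0`.

ONE BLOCK = radii `a < b0 < r0 << r1 < r2 << r3 < b3`, outermost radius `3 b3 + 1`:
* `a`             the negative walk to be blocked starts on the sphere of radius `a` and ends on the sphere of radius `3 b3 + 1`
* `(r0, r1)`, `(r2, r3)`   the two SHIELD strips, ratio `ms`;      `(r1, r2)` the WORKING annulus: tube balls and patch balls live there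
* `PL`, `PR`      the left / right boundary arcs of the block (parameter arcs): connected, off `A`, inside `latBall c b3 \ latBall c b0`, crossing both strips, covering all the sites of `latOut A` of radius in `[r0, r3]`
* `zs`            tube centres from the left end to the right end through the bulk, spacing `≤ ρ`, `latBall z (K1 ρ) ⊆ A ∩` working annulus, at most `100 Lq` of them
* `qL`, `qR`      sites off `A` within `2 K1 ρ` of the first / last centre;  the patch balls `latBall q L`, `L ≥ Lq ρ`, lie in the working annulus and miss the opposite arc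
* `aL`, `aR`      ANCHORS: sites of `PL`, `PR` (e.g. the site just above the topmost site of `A` in a column) above which the column is off `A` up to radius `3 b3 + 1`
* `top`, `col`    the part of the big ball above the box `|X| ≤ b3, Y ≤ 2 b3`, and the columns `|X| ≤ a` above the ball of radius `b0`, are off `A` (and off the arcs)
-/

set_option autoImplicit false

namespace Claimed.Agent.R291

open Claims Claims.C0467

/-- frame: rotation by `k` times 60 degrees about `c` -/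
def bdyFr (c : TV) (k : ℕ) (u : TV) : TV := latRot^[k] (u - c)

/-- the data of one block -/
structure BdyBlkD where
  a : ℕ
  b0 : ℕ
  r0 : ℕ
  r1 : ℕ
  r2 : ℕ
  r3 : ℕ
  b3 : ℕ
  ρ : ℕ
  L : ℕ
  zs : List TV
  qL : TV
  qR : TV
  aL : TV
  aR : TV
  PL : Finset TV
  PR : Finset TV

/-- the geometry of one block.  Constants: `K1` (free ball ratio), `Lq` (patch ratio), `n0` (smallest scale), `ms` (ratio of the shield strips). -/
structure BdyBlk (A : Finset TV) (c : TV) (k : ℕ) (K1 Lq n0 ms : ℕ) (B : BdyBlkD) : Prop where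
  ha : 1 ≤ B.a ∧ n0 ≤ B.a
  hb0 : 3 * B.a ≤ B.b0
  hr0 : B.b0 < B.r0
  hr1 : ms * B.r0 < B.r1
  hr12 : B.r1 ≤ B.r2
  hr3 : ms * (B.r2 + 1) < B.r3
  hb3 : B.r3 < B.b3
  hρ : 1 ≤ B.ρ ∧ n0 ≤ B.ρ
  hL : Lq * B.ρ ≤ B.L
  zs_ne : B.zs ≠ []
  zs_len : B.zs.length ≤ 100 * Lq
  zs_chain : B.zs.IsChain (fun z z' => latDist z z' ≤ B.ρ)
  zs_ball : ∀ z ∈ B.zs, latBall z (K1 * B.ρ) ⊆ A ∧ latBall z (K1 * B.ρ) ⊆ latBall c B.r2 ∧ Disjoint (latBall z (K1 * B.ρ)) (latBall c B.r1)
  qL_off : B.qL ∉ A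
  qL_near : ∀ z, B.zs.head? = some z → latDist z B.qL ≤ 2 * K1 * B.ρ
  qL_ball : latBall B.qL B.L ⊆ latBall c B.r2 ∧ Disjoint (latBall B.qL B.L) (latBall c B.r1) ∧ Disjoint (latBall B.qL B.L) B.PR
  qR_off : B.qR ∉ A
  qR_near : ∀ z, B.zs.getLast? = some z → latDist z B.qR ≤ 2 * K1 * B.ρ
  qR_ball : latBall B.qR B.L ⊆ latBall c B.r2 ∧ Disjoint (latBall B.qR B.L) (latBall c B.r1) ∧ Disjoint (latBall B.qR B.L) B.PL
  PL_conn : TscConn tscG (B.PL : Set TV)
  PL_off : Disjoint B.PL A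
  PL_in : B.PL ⊆ latBall c B.b3 ∧ Disjoint B.PL (latBall c B.b0)
  PL_ends : (∃ u ∈ B.PL, u ∈ latBall c B.r0) ∧ ∃ u ∈ B.PL, u ∉ latBall c B.r3
  PR_conn : TscConn tscG (B.PR : Set TV)
  PR_off : Disjoint B.PR A
  PR_in : B.PR ⊆ latBall c B.b3 ∧ Disjoint B.PR (latBall c B.b0)
  PR_ends : (∃ u ∈ B.PR, u ∈ latBall c B.r0) ∧ ∃ u ∈ B.PR, u ∉ latBall c B.r3
  cover : ∀ u ∈ latOut A, u ∈ latBall c B.r3 → B.r0 ≤ latN (u - c) → u ∈ B.PL ∨ u ∈ B.PR
  aL_mem : B.aL ∈ B.PL
  aR_mem : B.aR ∈ B.PR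
  aL_x : (bdyFr c k B.aL).1 < -(B.a : ℤ)
  aR_x : (B.a : ℤ) < (bdyFr c k B.aR).1
  rayL : ∀ u ∈ latBall c (3 * B.b3 + 1), (bdyFr c k u).1 = (bdyFr c k B.aL).1 → (bdyFr c k B.aL).2 < (bdyFr c k u).2 → u ∉ A
  rayR : ∀ u ∈ latBall c (3 * B.b3 + 1), (bdyFr c k u).1 = (bdyFr c k B.aR).1 → (bdyFr c k B.aR).2 < (bdyFr c k u).2 → u ∉ A
  top : ∀ u ∈ latBall c (3 * B.b3 + 1), |(bdyFr c k u).1| ≤ (B.b3 : ℤ) → 2 * (B.b3 : ℤ) < (bdyFr c k u).2 → u ∉ A
  col : ∀ u ∈ latBall c B.b3, u ∉ latBall c B.b0 → |(bdyFr c k u).1| ≤ (B.a : ℤ) → 0 < (bdyFr c k u).2 → u ∉ A ∧ u ∉ B.PL ∧ u ∉ B.PR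

/-- the global geometry: hole-free free set, the window arc `Sin` around `c`, the far arc `Sout` (which sees infinity) -/
structure BdyGeo (A : Finset TV) (c : TV) (Sin Sout : Finset TV) (a0 Rtop : ℕ) : Prop where
  co : MomCo A
  c_off : c ∉ A
  sin_conn : TscConn tscG (Sin : Set TV)
  sin_off : Disjoint Sin A
  sin_in : Sin ⊆ latBall c a0
  sout_conn : TscConn tscG (Sout : Set TV)
  sout_off : Disjoint Sout A
  sout_far : Disjoint Sout (latBall c Rtop)
  sout_ray : ∃ u ∈ Sout, ∃ d ∈ latDirs, ∀ j : ℕ, u + j • d ∉ A ∧ u + j • d ∉ latBall c Rtop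

/-- **the geometric package of [ARCH]** at one mesh: `N` nested blocks between the discs of radii `r` and `R` about `p` -/
structure BdyPack (δ : ℝ) (p : ℝ × ℝ) (r R : ℝ) (A : Finset TV) (K1 Lq n0 ms N : ℕ) (c : TV) (k : ℕ) (Sin Sout : Finset TV) (Rtop : ℕ)
    (B : ℕ → BdyBlkD) : Prop where
  geo : BdyGeo A c Sin Sout (B 0).a Rtop
  blk : ∀ j < N, BdyBlk A c k K1 Lq n0 ms (B j)
  nest : ∀ j, j + 1 < N → 3 * (B j).b3 + 3 ≤ (B (j + 1)).a
  last : ∀ j < N, 3 * (B j).b3 + 1 ≤ Rtop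
  start : ∀ u ∈ bdyIn δ p r, latN (u - c) < (B 0).a
  stop : ∀ u ∈ bdyOut δ p R, u ∉ latBall c Rtop
  win : ∀ u ∈ latOut A, u ∈ bdyIn δ p r → u ∈ Sin
  far : ∀ u ∈ latOut A, u ∈ bdyOut δ p R → u ∈ Sout

theorem bdy_geo_eqns_cite : True := by
  have := @bdyFr.eq_1
  trivial

end Claimed.Agent.R291
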