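import Claimed.Agent.R291.Defs.Cell

/-!
# Row 291 (S0539), Defs/Dis : SEC. 2 IN SET LANGUAGE, DEFINITIONS AND SMALL API      (owner helper146; prefix `dis_`, defs `cl…`/`Cl…`)

Secs. 1-4 of `Dis/Base.lean`, moved here VERBATIM by helper46 (05:58Z Oct 15) so that `Cell/Adapt.lean` (adapter CellSys -> ClSys) can be
imported BY `Dis/Base.lean` (`dis_assoc := cad_assoc`, `dis_order := cad_order`).  `Dis/Base` imports this file through `Cell/Adapt`:
nothing changes for the consumers of `Dis/Base`.  New DEFINITIONS of the abstract layer go here, exits stay in `Dis/Base`.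
-/

set_option autoImplicit false
set_option linter.unusedSectionVars false

namespace Claimed.Agent.R291

open Claims Claims.C0467

section abstract

variable {V Y : Type} [DecidableEq V] [DecidableEq Y]

/-! ### 1. sums -/

open Classical in
/-- unnormalised expectation under the constraint `K` -/
noncomputable def ClSys.N (S : ClSys V Y) (K : ClCfg V Y → Prop) (G : ClCfg V Y → ℝ) : ℝ :=
  ∑ ω ∈ S.cfgs, if K ω then S.wt ω * G ω else 0

theorem dis_E_eq (S : ClSys V Y) (K : ClCfg V Y → Prop) (G : ClCfg V Y → ℝ) :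
    S.E K G = S.N K G / S.Z K := rfl

theorem dis_Z_eq (S : ClSys V Y) (K : ClCfg V Y → Prop) : S.Z K = S.N K (fun _ => 1) := by
  unfold ClSys.Z ClSys.N; simp

/-- the integer of a sign (`true` = plus) -/
def clSg (s : Bool) : ℤ := if s then 1 else -1

/-- basic sanity of a system: cells inside the site set, parameters in `(0,1]` -/
structure ClOk (S : ClSys V Y) : Prop where
  sub : ∀ y ∈ S.C, S.sv y ⊆ S.A
  ne : ∀ y ∈ S.C, (S.sv y).Nonempty
  q0 : ∀ y ∈ S.C, 0 < S.q y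
  q1 : ∀ y ∈ S.C, S.q y ≤ 1

/-- THE topological hypothesis (TEX l.300-330: "triangle boundaries generate the cycle space"), in cell language.
`conn`: a spin constant on every cell is constant.  `split`: the plus part of a wall is a wall. -/
structure ClDisk (S : ClSys V Y) : Prop extends ClOk S where
  card : ∀ y ∈ S.C, (S.sv y).card ≤ 3
  conn : ∀ U ⊆ S.A, (∀ y ∈ S.C, ClConst U (S.sv y)) → ClConst U S.A
  split : ∀ B ⊆ S.A, ∀ W ⊆ S.A, (∀ y ∈ S.C, ¬ ClConst B (S.sv y) → ClConst W (S.sv y)) →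
    ∃ W₁ ⊆ S.A, ∀ y ∈ S.C,
      (S.sv y ⊆ B → ∀ u ∈ S.sv y, ∀ v ∈ S.sv y, ((u ∈ W₁ ↔ v ∈ W₁) ↔ (u ∈ W ↔ v ∈ W))) ∧
      (¬ S.sv y ⊆ B → ClConst W₁ (S.sv y))

/-- increasing in the order of the paper: `B` by inclusion, statuses by `- < 0 < +`.  (Implies: `G` is a function of `(B, τ)`.) -/
def ClMono (S : ClSys V Y) (G : ClCfg V Y → ℝ) : Prop :=
  ∀ ω ω' : ClCfg V Y, ω.B ⊆ ω'.B → (∀ y ∈ S.C, clTau S ω y ≤ clTau S ω' y) → G ω ≤ G ω'

/-- increasing event -/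
def ClMonoP (S : ClSys V Y) (L : ClCfg V Y → Prop) : Prop :=
  ∀ ω ω' : ClCfg V Y, ω.B ⊆ ω'.B → (∀ y ∈ S.C, clTau S ω y ≤ clTau S ω' y) → L ω → L ω'

/-- locality of an event -/
def ClLocP (T : Finset V) (T' : Finset Y) (K : ClCfg V Y → Prop) : Prop :=
  ∀ ω ω' : ClCfg V Y, ω.B ∩ T = ω'.B ∩ T → ω.W ∩ T = ω'.W ∩ T → ω.O ∩ T' = ω'.O ∩ T' → (K ω ↔ K ω')

/-! ### 2. histories -/

/-- a legal history (TEX l.187-196): no `W` label; an observed cell has all its first spins pinned; equality edges lie inside cells -/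
structure ClLegal (S : ClSys V Y) (K : ClCon V Y) : Prop where
  wp : K.Wp = ∅
  wm : K.Wm = ∅
  full : ∀ y ∈ S.C, y ∈ K.Op ∪ K.Om ∪ K.Cl → S.sv y ⊆ K.Bp ∪ K.Bm
  eq : ∀ e ∈ K.Eq, ∃ y ∈ S.C, e.1 ∈ S.sv y ∧ e.2 ∈ S.sv y

/-- order of histories, `K₁` below `K₂` -/
structure ClLe (K₁ K₂ : ClCon V Y) : Prop where
  bp : K₁.Bp ⊆ K₂.Bp
  bm : K₂.Bm ⊆ K₁.Bm
  op : K₁.Op ⊆ K₂.Op
  om : K₂.Om ⊆ K₁.Om
  cl1 : K₁.Cl ⊆ K₂.Cl ∪ K₂.Op
  cl2 : K₂.Cl ⊆ K₁.Cl ∪ K₁.Om
  eq : K₁.Eq = K₂.Eq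

/-- add a first-spin pin -/
def ClCon.pin (K : ClCon V Y) (v : V) (s : Bool) : ClCon V Y :=
  if s then { K with Bp := insert v K.Bp } else { K with Bm := insert v K.Bm }

/-- observe a status (`1`, `-1`, anything else = closed) -/
def ClCon.obs (K : ClCon V Y) (y : Y) (t : ℤ) : ClCon V Y :=
  if t = 1 then { K with Op := insert y K.Op } else if t = -1 then { K with Om := insert y K.Om }
  else { K with Cl := insert y K.Cl }

/-- `K'` = `K` together with a complete observation of the sites `P` and of the cells `Q` (and nothing else) -/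
structure ClExt (K K' : ClCon V Y) (P : Finset V) (Q : Finset Y) : Prop where
  bp : K.Bp ⊆ K'.Bp ∧ K'.Bp ⊆ K.Bp ∪ P
  bm : K.Bm ⊆ K'.Bm ∧ K'.Bm ⊆ K.Bm ∪ P
  op : K.Op ⊆ K'.Op ∧ K'.Op ⊆ K.Op ∪ Q
  om : K.Om ⊆ K'.Om ∧ K'.Om ⊆ K.Om ∪ Q
  cl : K.Cl ⊆ K'.Cl ∧ K'.Cl ⊆ K.Cl ∪ Q
  allP : P ⊆ K'.Bp ∪ K'.Bm
  allQ : Q ⊆ K'.Op ∪ K'.Om ∪ K'.Cl
  eq : K'.Eq = K.Eq
  wp : K'.Wp = K.Wp
  wm : K'.Wm = K.Wm

/-- the two histories coincide off the site set `O` (sites off `O`, cells not inside `O`) -/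
structure ClAgree (S : ClSys V Y) (K₁ K₂ : ClCon V Y) (O : Finset V) : Prop where
  bp : ∀ v, v ∉ O → (v ∈ K₁.Bp ↔ v ∈ K₂.Bp)
  bm : ∀ v, v ∉ O → (v ∈ K₁.Bm ↔ v ∈ K₂.Bm)
  op : ∀ y ∈ S.C, ¬ S.sv y ⊆ O → (y ∈ K₁.Op ↔ y ∈ K₂.Op)
  om : ∀ y ∈ S.C, ¬ S.sv y ⊆ O → (y ∈ K₁.Om ↔ y ∈ K₂.Om)
  cl : ∀ y ∈ S.C, ¬ S.sv y ⊆ O → (y ∈ K₁.Cl ↔ y ∈ K₂.Cl)

/-- local criterion of feasibility of a legal history -/
structure ClFeas (S : ClSys V Y) (K : ClCon V Y) : Prop where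
  bpA : K.Bp ⊆ S.A
  dis : Disjoint K.Bp K.Bm
  opC : K.Op ⊆ S.C
  omC : K.Om ⊆ S.C
  op : ∀ y ∈ K.Op, S.sv y ⊆ K.Bp
  om : ∀ y ∈ K.Om, S.sv y ⊆ K.Bm
  cl : ∀ y ∈ K.Cl, y ∈ S.C → (S.sv y ⊆ K.Bp ∨ S.sv y ⊆ K.Bm) → S.q y < 1
  d1 : Disjoint K.Op K.Om
  d2 : Disjoint K.Op K.Cl
  d3 : Disjoint K.Om K.Cl

/-! ### 3. cuts and invasion -/

/-- the cell `y` has a site in `I` and a site off `I` -/
def clCross (S : ClSys V Y) (I : Finset V) (y : Y) : Prop :=
  (∃ u ∈ S.sv y, u ∈ I) ∧ ∃ v ∈ S.sv y, v ∉ I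

instance clCrossDec (S : ClSys V Y) (I : Finset V) (y : Y) : Decidable (clCross S I y) := by
  unfold clCross; infer_instance

/-- `I` is a cut set of sign `s` (TEX[lem:cell-cut]: `I` = inside of a good circuit) -/
def ClCut (S : ClSys V Y) (s : Bool) (I : Finset V) (ω : ClCfg V Y) : Prop :=
  ∀ y ∈ S.C, clCross S I y → clTau S ω y = clSg s

/-- cells inside `I` -/
def ClSys.cin (S : ClSys V Y) (I : Finset V) : Finset Y := S.C.filter (fun y => S.sv y ⊆ I)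

/-- cells outside `I` (`S.C` = `cin` + crossing + `cout`, disjointly) -/
def ClSys.cout (S : ClSys V Y) (I : Finset V) : Finset Y :=
  S.C.filter (fun y => ¬ S.sv y ⊆ I ∧ ¬ clCross S I y)

/-- one step of the invasion: through a cell which is not open of sign `s`, or along an equality edge -/
def clStep (S : ClSys V Y) (s : Bool) (E : Finset (V × V)) (ω : ClCfg V Y) (u v : V) : Prop :=
  (∃ y ∈ S.C, u ∈ S.sv y ∧ v ∈ S.sv y ∧ clTau S ω y ≠ clSg s) ∨ (u, v) ∈ E ∨ (v, u) ∈ E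

open Classical in
/-- the invaded set -/
noncomputable def clInv (S : ClSys V Y) (s : Bool) (E : Finset (V × V)) (ω : ClCfg V Y) (O : Finset V) :
    Finset V :=
  S.A.filter (fun v => ∃ u ∈ O, Relation.ReflTransGen (clStep S s E ω) u v)

/-- "a good circuit of sign `s` separates `O` from `A`" -/
def ClSep (S : ClSys V Y) (s : Bool) (E : Finset (V × V)) (ω : ClCfg V Y) (O A : Finset V) : Prop :=
  ∀ u ∈ O, ∀ v ∈ A, ¬ Relation.ReflTransGen (clStep S s E ω) u v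

/-- the two constraints coincide inside `I` -/
structure ClAgreeIn (S : ClSys V Y) (K K' : ClCon V Y) (I : Finset V) : Prop where
  bp : ∀ v ∈ I, (v ∈ K.Bp ↔ v ∈ K'.Bp)
  bm : ∀ v ∈ I, (v ∈ K.Bm ↔ v ∈ K'.Bm)
  wp : ∀ v ∈ I, (v ∈ K.Wp ↔ v ∈ K'.Wp)
  wm : ∀ v ∈ I, (v ∈ K.Wm ↔ v ∈ K'.Wm)
  op : ∀ y ∈ S.cin I, (y ∈ K.Op ↔ y ∈ K'.Op)
  om : ∀ y ∈ S.cin I, (y ∈ K.Om ↔ y ∈ K'.Om)
  cl : ∀ y ∈ S.cin I, (y ∈ K.Cl ↔ y ∈ K'.Cl)
  eq : ∀ e : V × V, e.1 ∈ I → e.2 ∈ I → (e ∈ K.Eq ↔ e ∈ K'.Eq)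

/-! ### 4. small API (proved) -/

theorem dis_holds_pin_true (S : ClSys V Y) (K : ClCon V Y) (v : V) (ω : ClCfg V Y) :
    (K.pin v true).Holds S ω ↔ K.Holds S ω ∧ v ∈ ω.B := by
  simp only [ClCon.pin, ClCon.Holds, if_true, Finset.insert_subset_iff]
  tauto

theorem dis_holds_pin_false (S : ClSys V Y) (K : ClCon V Y) (v : V) (ω : ClCfg V Y) :
    (K.pin v false).Holds S ω ↔ K.Holds S ω ∧ v ∉ ω.B := by
  simp only [ClCon.pin, ClCon.Holds, Bool.false_eq_true, if_false, Finset.mem_insert, forall_eq_or_imp]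
  tauto

theorem dis_holds_obs_pos (S : ClSys V Y) (K : ClCon V Y) (y : Y) (ω : ClCfg V Y) :
    (K.obs y 1).Holds S ω ↔ K.Holds S ω ∧ clTau S ω y = 1 := by
  simp only [ClCon.obs, ClCon.Holds, if_true, Finset.mem_insert, forall_eq_or_imp]
  tauto

theorem dis_holds_obs_neg (S : ClSys V Y) (K : ClCon V Y) (y : Y) (ω : ClCfg V Y) :
    (K.obs y (-1)).Holds S ω ↔ K.Holds S ω ∧ clTau S ω y = -1 := by
  have h : ((-1 : ℤ) = 1) = False := by simp
  simp only [ClCon.obs, ClCon.Holds, h, if_false, if_true, Finset.mem_insert, forall_eq_or_imp]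
  tauto

theorem dis_tau_zero (S : ClSys V Y) (ω : ClCfg V Y) (y : Y) : clTau S ω y = 0 ↔ y ∉ ω.O := by
  unfold clTau; split_ifs <;> simp_all

theorem dis_holds_obs_zero (S : ClSys V Y) (K : ClCon V Y) (y : Y) (ω : ClCfg V Y) :
    (K.obs y 0).Holds S ω ↔ K.Holds S ω ∧ clTau S ω y = 0 := by
  have h : ((0 : ℤ) = 1) = False := by simp
  have h' : ((0 : ℤ) = -1) = False := by simp
  rw [dis_tau_zero]
  simp only [ClCon.obs, ClCon.Holds, h, h', if_false, Finset.mem_insert, forall_eq_or_imp]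
  tauto

theorem dis_tau_cases (S : ClSys V Y) (ω : ClCfg V Y) (y : Y) :
    clTau S ω y = 1 ∨ clTau S ω y = -1 ∨ clTau S ω y = 0 := by
  unfold clTau; split_ifs <;> simp

/-- total probability, one first spin -/
theorem dis_tot_pin (S : ClSys V Y) (K : ClCon V Y) (v : V) (G : ClCfg V Y → ℝ) :
    S.N (K.Holds S) G = S.N ((K.pin v true).Holds S) G + S.N ((K.pin v false).Holds S) G := by
  classical
  unfold ClSys.N
  rw [← Finset.sum_add_distrib]
  refine Finset.sum_congr rfl fun ω _ => ?_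
  simp only [dis_holds_pin_true, dis_holds_pin_false]
  by_cases h : K.Holds S ω <;> by_cases hv : v ∈ ω.B <;> simp [h, hv]

/-- total probability, one status -/
theorem dis_tot_obs (S : ClSys V Y) (K : ClCon V Y) (y : Y) (G : ClCfg V Y → ℝ) :
    S.N (K.Holds S) G = S.N ((K.obs y 1).Holds S) G + S.N ((K.obs y (-1)).Holds S) G
      + S.N ((K.obs y 0).Holds S) G := by
  classical
  unfold ClSys.N
  rw [← Finset.sum_add_distrib, ← Finset.sum_add_distrib]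
  refine Finset.sum_congr rfl fun ω _ => ?_
  simp only [dis_holds_obs_pos, dis_holds_obs_neg, dis_holds_obs_zero]
  by_cases h : K.Holds S ω
  · rcases dis_tau_cases S ω y with h1 | h1 | h1 <;> simp [h, h1]
  · simp [h]

theorem dis_cellW_nonneg {q : ℝ} (h0 : 0 ≤ q) (h1 : q ≤ 1) (bc wc o : Prop) [Decidable bc] [Decidable wc]
    [Decidable o] : 0 ≤ clCellW q bc wc o := by
  unfold clCellW; split_ifs <;> linarith

theorem dis_wt_nonneg (S : ClSys V Y) (hS : ClOk S) (ω : ClCfg V Y) : 0 ≤ S.wt ω :=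
  Finset.prod_nonneg fun y hy => dis_cellW_nonneg (hS.q0 y hy).le (hS.q1 y hy) _ _ _

/-- ENVELOPE PRINCIPLE (the easy half of Strassen's theorem; replaces every ordered coupling of Sec. 2).
`p₁ ≤st p₂` (cross-multiplied, unnormalised nonnegative weights on a finite poset), `u a ≤ v b` for `a ≤ b` in the supports. -/
theorem dis_envelope {α : Type*} [Fintype α] [PartialOrder α] (p₁ p₂ : α → ℝ)
    (h1 : ∀ a, 0 ≤ p₁ a) (h2 : ∀ a, 0 ≤ p₂ a)
    (hdom : ∀ f : α → ℝ, Monotone f →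
      (∑ a, p₁ a * f a) * (∑ a, p₂ a) ≤ (∑ a, p₁ a) * ∑ a, p₂ a * f a)
    (u v : α → ℝ) (huv : ∀ a b, a ≤ b → 0 < p₁ a → 0 < p₂ b → u a ≤ v b) :
    (∑ a, p₁ a * u a) * (∑ a, p₂ a) ≤ (∑ a, p₁ a) * ∑ a, p₂ a * v a := by
  classical
  rcases isEmpty_or_nonempty α with hα | hα
  · simp
  -- a global lower bound
  obtain ⟨m, hmu, hmv⟩ : ∃ m : ℝ, (∀ a, m ≤ u a) ∧ (∀ a, m ≤ v a) := by
    refine ⟨-(∑ a, (|u a| + |v a|)), fun a => ?_, fun a => ?_⟩
    · have : |u a| + |v a| ≤ ∑ a, (|u a| + |v a|) :=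
        Finset.single_le_sum (f := fun a => |u a| + |v a|) (fun i _ => by positivity) (Finset.mem_univ a)
      have h3 := neg_abs_le (u a); have h4 := abs_nonneg (v a); linarith
    · have : |u a| + |v a| ≤ ∑ a, (|u a| + |v a|) :=
        Finset.single_le_sum (f := fun a => |u a| + |v a|) (fun i _ => by positivity) (Finset.mem_univ a)
      have h3 := neg_abs_le (v a); have h4 := abs_nonneg (u a); linarith
  -- the envelope
  let g : α → α → ℝ := fun a a' => if a' ≤ a ∧ 0 < p₁ a' then u a' else m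
  let ψ : α → ℝ := fun a => Finset.univ.sup' Finset.univ_nonempty (g a)
  have hψmono : Monotone ψ := by
    intro a b hab
    refine Finset.sup'_le _ _ (fun a' _ => ?_)
    refine le_trans ?_ (Finset.le_sup' (g b) (Finset.mem_univ a'))
    simp only [g]
    by_cases hc : a' ≤ a ∧ 0 < p₁ a'
    · rw [if_pos hc, if_pos ⟨hc.1.trans hab, hc.2⟩]
    · rw [if_neg hc]; split_ifs
      · exact hmu a'
      · exact le_rfl
  have hu : ∀ a, p₁ a * u a ≤ p₁ a * ψ a := by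
    intro a
    rcases (h1 a).eq_or_lt with h0 | h0
    · rw [← h0]; simp
    · refine mul_le_mul_of_nonneg_left ?_ (h1 a)
      have := Finset.le_sup' (g a) (Finset.mem_univ a)
      simpa [g, h0] using this
  have hv : ∀ b, p₂ b * ψ b ≤ p₂ b * v b := by
    intro b
    rcases (h2 b).eq_or_lt with h0 | h0
    · rw [← h0]; simp
    · refine mul_le_mul_of_nonneg_left ?_ (h2 b)
      refine Finset.sup'_le _ _ (fun a' _ => ?_)
      simp only [g]
      split_ifs with hc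
      · exact huv a' b hc.1 hc.2 h0
      · exact hmv b
  have s1 : 0 ≤ ∑ a, p₁ a := Finset.sum_nonneg (fun a _ => h1 a)
  have s2 : 0 ≤ ∑ a, p₂ a := Finset.sum_nonneg (fun a _ => h2 a)
  calc (∑ a, p₁ a * u a) * (∑ a, p₂ a) ≤ (∑ a, p₁ a * ψ a) * (∑ a, p₂ a) :=
        mul_le_mul_of_nonneg_right (Finset.sum_le_sum (fun a _ => hu a)) s2
    _ ≤ (∑ a, p₁ a) * ∑ a, p₂ a * ψ a := hdom ψ hψmono
    _ ≤ (∑ a, p₁ a) * ∑ a, p₂ a * v a :=
        mul_le_mul_of_nonneg_left (Finset.sum_le_sum (fun a _ => hv a)) s1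

/-- the equation / congruence lemmas of the definitions of this file are generated HERE (RULES.md, rule 6) -/
theorem dis_defs_eqns_cite : True := by
  have := @ClSys.N.eq_1
  have := @clSg.eq_1
  have := @ClMono.eq_1
  have := @ClMonoP.eq_1
  have := @ClLocP.eq_1
  have := @ClCon.pin.eq_1
  have := @ClCon.obs.eq_1
  have := @clCross.eq_1
  have := @ClCut.eq_1
  have := @ClSys.cin.eq_1
  have := @ClSys.cout.eq_1
  have := @clStep.eq_1
  have := @clInv.eq_1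
  have := @ClSep.eq_1
  have := @ClSys.N.congr_simp
  have := @clSg.congr_simp
  have := @ClMono.congr_simp
  have := @ClMonoP.congr_simp
  have := @ClLocP.congr_simp
  have := @ClCon.pin.congr_simp
  have := @ClCon.obs.congr_simp
  have := @clCross.congr_simp
  have := @ClCut.congr_simp
  have := @ClSys.cin.congr_simp
  have := @ClSys.cout.congr_simp
  have := @clStep.congr_simp
  have := @clInv.congr_simp
  have := @ClSep.congr_simp
  trivial

end abstract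

end Claimed.Agent.R291
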