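import Claimed.Agent.R291.Defs.BdySyn
import Claimed.Agent.R291.Dis.StackHt
import Claimed.Agent.R291.Dis.Lift

/-!
# Row 291 (S0539), Defs/BdyCell : THE SYNTHETIC LAW IN CELL LANGUAGE      (owner helper128, HEAD BDY; prefix `bsc`)
TEX[lem:synthetic-trace], TEX[lem:attachment].      Used ONLY inside the proofs of `exit_bdy_patch` (Bdy/SynBr = dictionary, Bdy/SynCell = flip) and, if wanted, `exit_bdy_strip`.

HEIGHTS ARE SHIFTED BY `+1`:  the synthetic law has trace `-1` and pair `{-1,0}` on the pocket; `h + 1` has trace `0` and pair `{0,1}`, i.e. FIRST Gray spin `B = +` off `A`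
(so that the favourable pins are pins of the first colour and all the tools of unit DIS apply verbatim), second spin `W = +` off `A' = A ∪ P`.
* `bscK V A A'`    legal history: `B = +` on `V \ A`, equalities of `W` along the edges of the skeleton `V \ A'`
* `bscKL V A A'`   the same history with the label `W = +` on the skeleton
* `bscH A' V ω`    the height function of `ω`, shifted back by `-1`
-/

set_option autoImplicit false

namespace Claimed.Agent.R291

open Claims Claims.C0467

/-- plus pins of the first spin on `V \ A`, equalities of the second spin on the skeleton `V \ A'` -/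
noncomputable def bscK (V A A' : Finset TV) : ClCon TV TV :=
  ⟨V \ A, ∅, ((V \ A') ×ˢ (V \ A')).filter (fun e => triAdj e.1 e.2), ∅, ∅, ∅, ∅, ∅⟩

/-- the history `bscK` with the label `W = +` on the skeleton -/
noncomputable def bscKL (V A A' : Finset TV) : ClCon TV TV :=
  { bscK V A A' with Wp := (bscK V A A').Wp ∪ (V \ A') }

/-- the height function of a configuration, in the normalisation of the synthetic law (trace `-1`) -/
noncomputable def bscH (A' V : Finset TV) (ω : ClCfg TV TV) : TV → ℤ := fun u => dlfH A' V 0 ω u - 1

/-- the equation lemmas of the definitions of this file are generated HERE (RULES.md, rule 6) -/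
theorem bsc_defs_eqns_cite : True := by
  have := @bscK.eq_1
  have := @bscKL.eq_1
  have := @bscH.eq_1
  trivial

end Claimed.Agent.R291
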