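import Claimed.Agent.R291.Defs.Ht

/-!
# Row 291 (S0539), Defs/Cell : THE CELL REPRESENTATION (spins `B`, `W`, statuses)      (owner helper115; prefix `cl`)

TEX 02-discrete l.18-110 (gray code, pair weight, cell table, pins, equalities), 09-annulus (general complexes).

ABSTRACT LAYER (any site type `V`, any cell index type `Y`; no planarity):
* `ClSys V Y` : finite site set `A`, finite set of interacting cells `C`, `sv y` = sites of the cell `y`, `q y` = its parameter.
  Covers: up-triangles (`q = x^2`), clipped cells = single edges (`q = x`), cells of either orientation, capped cylinders, spheres.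
* `ClCfg V Y` : a configuration = (`B` = set of PLUS sites of the first spin, `W` = set of PLUS sites of the second spin,
  `O` = set of OPEN cells).  Finsets, so that `⊆` is the order of the paper and Mathlib's four functions theorem applies verbatim.
  All systems on the same `V, Y` share ONE configuration type.
* `clCellW` = the cell table (discrete:cell-table), `S.wt ω`, `S.cfgs`, `S.Z K`, `S.E K G`, `S.P K L` for a constraint `K : ClCfg V Y → Prop`.
* `clTau S ω y ∈ {-1, 0, 1}`.
* `ClCon V Y` : the deterministic constraints of the paper (B pins of both signs, W equalities `E_0`, prescribed open-plus / open-minus /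
  closed cells, prescribed W labels), `K.Holds S ω`.
PLANAR LAYER (`V = Y = TV`, cell `y` = up-triangle `cellV y`):
* `clAmb x A` = free AMBIENT law on `A` (edge convention: all up-cells meeting `A`, clipped to `A`; `q = x^2` or `x`)
* `clInn x A` = law with the boundary cells EXCLUDED (only up-cells inside `A`): the law of Theorem 2.3 / of an open cut.
* gray code `htB A h`, `htW A h`, `htCl A h`; spins `clS`, increment `clInc` (discrete:increment), residue `clRes`.
-/

set_option autoImplicit false
set_option linter.unusedSectionVars false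
set_option linter.unusedSimpArgs false

namespace Claimed.Agent.R291

open Claims Claims.C0467

/-- an abstract cell system -/
structure ClSys (V Y : Type) where
  /-- sites -/
  A : Finset V
  /-- interacting cells -/
  C : Finset Y
  /-- the sites of a cell -/
  sv : Y → Finset V
  /-- the parameter `q_y` of a cell -/
  q : Y → ℝ

/-- a configuration: plus sites of `B`, plus sites of `W`, open cells -/
@[ext] structure ClCfg (V Y : Type) where
  B : Finset V
  W : Finset V
  O : Finset Y

/-- the spin with plus set `P` is constant on `s` -/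
def ClConst {V : Type} (P s : Finset V) : Prop := s ⊆ P ∨ ∀ v ∈ s, v ∉ P

instance clConstDec {V : Type} [DecidableEq V] (P s : Finset V) : Decidable (ClConst P s) := by
  unfold ClConst; infer_instance

/-- the cell table: `bc` = "B constant", `wc` = "W constant", `o` = "open" -/
def clCellW (q : ℝ) (bc wc o : Prop) [Decidable bc] [Decidable wc] [Decidable o] : ℝ :=
  if o then (if bc then q else 0) else (if wc then (if bc then 1 - q else q) else 0)

section abstract

variable {V Y : Type} [DecidableEq V] [DecidableEq Y]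

/-- weight of a configuration -/
def ClSys.wt (S : ClSys V Y) (ω : ClCfg V Y) : ℝ :=
  ∏ y ∈ S.C, clCellW (S.q y) (ClConst ω.B (S.sv y)) (ClConst ω.W (S.sv y)) (y ∈ ω.O)

/-- weight of the spin pair after summing the statuses: `1` if both constant, `q` if exactly one is, `0` otherwise -/
def ClSys.wtP (S : ClSys V Y) (B W : Finset V) : ℝ :=
  ∏ y ∈ S.C, if ClConst B (S.sv y) then (if ClConst W (S.sv y) then 1 else S.q y)
    else (if ClConst W (S.sv y) then S.q y else 0)

/-- all configurations of the system -/
def ClSys.cfgs (S : ClSys V Y) : Finset (ClCfg V Y) :=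
  (S.A.powerset ×ˢ S.A.powerset ×ˢ S.C.powerset).map
    ⟨fun t => ⟨t.1, t.2.1, t.2.2⟩, fun s t h => by
      simp only [ClCfg.mk.injEq] at h
      exact Prod.ext h.1 (Prod.ext h.2.1 h.2.2)⟩

theorem cl_mem_cfgs (S : ClSys V Y) (ω : ClCfg V Y) : ω ∈ S.cfgs ↔ ω.B ⊆ S.A ∧ ω.W ⊆ S.A ∧ ω.O ⊆ S.C := by
  unfold ClSys.cfgs
  simp only [Finset.mem_map, Finset.mem_product, Finset.mem_powerset, Function.Embedding.coeFn_mk, Prod.exists]
  constructor
  · rintro ⟨a, b, c, h, rfl⟩; exact h
  · intro h; exact ⟨ω.B, ω.W, ω.O, h, rfl⟩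

theorem cl_sum_cfgs (S : ClSys V Y) (f : ClCfg V Y → ℝ) :
    ∑ ω ∈ S.cfgs, f ω = ∑ B ∈ S.A.powerset, ∑ W ∈ S.A.powerset, ∑ O ∈ S.C.powerset, f ⟨B, W, O⟩ := by
  unfold ClSys.cfgs
  rw [Finset.sum_map, Finset.sum_product]
  refine Finset.sum_congr rfl fun B _ => ?_
  rw [Finset.sum_product]
  rfl

open Classical in
/-- partition function under the constraint `K` -/
noncomputable def ClSys.Z (S : ClSys V Y) (K : ClCfg V Y → Prop) : ℝ :=
  ∑ ω ∈ S.cfgs, if K ω then S.wt ω else 0

open Classical in
/-- expectation under the constraint `K` (`0` if infeasible) -/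
noncomputable def ClSys.E (S : ClSys V Y) (K : ClCfg V Y → Prop) (G : ClCfg V Y → ℝ) : ℝ :=
  (∑ ω ∈ S.cfgs, if K ω then S.wt ω * G ω else 0) / S.Z K

open Classical in
/-- probability of `L` under the constraint `K` -/
noncomputable def ClSys.P (S : ClSys V Y) (K L : ClCfg V Y → Prop) : ℝ :=
  S.E K (fun ω => if L ω then 1 else 0)

/-- the status `τ_y ∈ {-1, 0, 1}` -/
def clTau (S : ClSys V Y) (ω : ClCfg V Y) (y : Y) : ℤ :=
  if y ∈ ω.O then (if S.sv y ⊆ ω.B then 1 else -1) else 0

/-- deterministic constraints -/
structure ClCon (V Y : Type) where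
  /-- first spin pinned plus -/
  Bp : Finset V
  /-- first spin pinned minus -/
  Bm : Finset V
  /-- second spin equalities `E_0` -/
  Eq : Finset (V × V)
  /-- cells prescribed open-plus -/
  Op : Finset Y
  /-- cells prescribed open-minus -/
  Om : Finset Y
  /-- cells prescribed closed -/
  Cl : Finset Y
  /-- second spin prescribed plus -/
  Wp : Finset V
  /-- second spin prescribed minus -/
  Wm : Finset V

/-- the configuration satisfies the constraints -/
def ClCon.Holds (K : ClCon V Y) (S : ClSys V Y) (ω : ClCfg V Y) : Prop :=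
  K.Bp ⊆ ω.B ∧ (∀ v ∈ K.Bm, v ∉ ω.B) ∧ (∀ e ∈ K.Eq, (e.1 ∈ ω.W ↔ e.2 ∈ ω.W)) ∧
  (∀ y ∈ K.Op, clTau S ω y = 1) ∧ (∀ y ∈ K.Om, clTau S ω y = -1) ∧ (∀ y ∈ K.Cl, y ∉ ω.O) ∧
  K.Wp ⊆ ω.W ∧ (∀ v ∈ K.Wm, v ∉ ω.W)

/-- no constraint -/
def clFree : ClCon V Y := ⟨∅, ∅, ∅, ∅, ∅, ∅, ∅, ∅⟩

/-- `G` depends only on the sites of `T` and the cells of `T'` -/
def ClLoc (T : Finset V) (T' : Finset Y) (G : ClCfg V Y → ℝ) : Prop :=
  ∀ ω ω' : ClCfg V Y, ω.B ∩ T = ω'.B ∩ T → ω.W ∩ T = ω'.W ∩ T → ω.O ∩ T' = ω'.O ∩ T' → G ω = G ω'

/-- spin value `±1` of the spin with plus set `P` -/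
def clS (P : Finset V) (u : V) : ℤ := if u ∈ P then 1 else -1

/-- the height increment along the oriented edge `u v` (discrete:increment) -/
def clInc (ω : ClCfg V Y) (u v : V) : ℤ := (clS ω.W u * clS ω.B v - clS ω.B u * clS ω.W v) / 2

/-- the residue mod 4 of the height (discrete:gray) -/
def clRes (ω : ClCfg V Y) (u : V) : ℤ :=
  if u ∈ ω.B then (if u ∈ ω.W then 0 else 1) else (if u ∈ ω.W then 3 else 2)

end abstract

/-! ### the planar systems -/

/-- planar system: sites `A`, up-cells `C` clipped to `A` -/
noncomputable def clPl (x : ℝ) (A C : Finset TV) : ClSys TV TV where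
  A := A
  C := C
  sv := fun y => cellV y ∩ A
  q := fun y => if (cellV y ∩ A).card = 3 then x ^ 2 else x

/-- the free ambient system on `A` (edge convention) -/
noncomputable def clAmb (x : ℝ) (A : Finset TV) : ClSys TV TV := clPl x A (latCells A)

/-- the system on `A` with the boundary cells excluded -/
noncomputable def clInn (x : ℝ) (A : Finset TV) : ClSys TV TV := clPl x A (latCellsIn A)

/-- gray code: plus sites of the first spin of a height function, inside `A` -/
def htB (A : Finset TV) (h : TV → ℤ) : Finset TV := A.filter (fun u => h u % 4 = 0 ∨ h u % 4 = 1)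

/-- gray code: plus sites of the second spin of a height function, inside `A` -/
def htW (A : Finset TV) (h : TV → ℤ) : Finset TV := A.filter (fun u => h u % 4 = 0 ∨ h u % 4 = 3)

/-- the equation lemmas of the definitions of this file are generated HERE (RULES.md, rule 6) -/
theorem cl_defs_eqns_cite : True := by
  have := @ClConst.eq_1
  have := @clCellW.eq_1
  have := @ClSys.wt.eq_1
  have := @ClSys.wtP.eq_1
  have := @ClSys.cfgs.eq_1
  have := @ClSys.Z.eq_1
  have := @ClSys.E.eq_1
  have := @ClSys.P.eq_1
  have := @clTau.eq_1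
  have := @ClCon.Holds.eq_1
  have := @clFree.eq_1
  have := @ClLoc.eq_1
  have := @clS.eq_1
  have := @clInc.eq_1
  have := @clRes.eq_1
  have := @clPl.eq_1
  have := @clAmb.eq_1
  have := @clInn.eq_1
  have := @htB.eq_1
  have := @htW.eq_1
  trivial

end Claimed.Agent.R291
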