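import Claimed.Agent.R291.Defs.Ht
import Claimed.Agent.R291.Wick.Weyl
import Claimed.Agent.R291.Top.Mom

/-!
# Row 291 (S0539), Defs/Lim : THE INTERFACE OF UNIT LIM (07-limit.tex)      (owner helper181, head of LIM; prefix `lim_`, defs `lim*`/`Lim*`)

Typed on the HT vocabulary of helper115 (`Defs/Lat`, `Defs/Ht`: total heights `TV → ℤ`, `htFz x F` = the frozen law, `htSm δ F f` = its smeared field, `htPl x` = plane law
on local gradient observables) + `wkBall` (closed EUCLIDEAN disc) of Wick/Bump + `WkTest D g` (continuous, compact support inside `D`) of Wick/Weyl.  No cell, no spin, no bracket, no exploration, no coupling crosses this interface.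
Design note: `git show origin/helper181:notes/R291/sec7_181.md`.

INPUTS (Prop valued; the sorried exits are in `Exit/Lim*.lean`, owners = the producing heads)
* `LimSM x`           TEX[prop:smearing], zero trace, lattice form, even moments, two radii                                              (MOM, 122)
* `LimBD x D δ F`     TEX[prop:boundary-moments] with FIXED INTERIOR spectators only                                                      (BDY, 128/176)
* `LimBRK x D δ F`    upper bracket package TEX[pins:bracket-order, prop:bracket-collapse, prop:bracket-insertion, pins:local-geometry]  (glue 34; PIN ins, BDY col, DIS dom, MOM mom)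
* `LimPl0 x`          the plane law without `v`: existence of `htPl` (`lim`), TEX[cor:conditional-plane-matching] as approximate independence (`mix`)   (DIS 146/141; exit_lim_pl0)
* `LimPlane x v`      extends `LimPl0 x` by TEX[prop:plane-moments] (`mom`), TEX[prop:plane-covariance] in Laplacian form (`cov`)           (MOM 122/164, PLN 94/140)
INTERMEDIATE / OUTPUT
* `LimIns x D δ F`    the insertion identity for the TRUE field, zero total spectators, at the discrete level  TEX[limit:transfer]       (165)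
* `LimDec x v D δ F`  the collision decoupling  TEX[eq:limit-plane-factorization] at the discrete level                                   (181)
* `LimOut x v`        convergence of all moments to the Wick numbers
-/

set_option autoImplicit false

namespace Claimed.Agent.R291

open MeasureTheory Filter Topology Set
open scoped ContDiff
open Claims Claims.C0467

/-! ### objects -/

/-- mixed moment of the smeared fields in the frozen law -/
noncomputable def limM (x δ : ℝ) (F : Finset TV) {j : ℕ} (g : Fin j → ℝ × ℝ → ℝ) : ℝ :=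
  htFz x F fun h => ∏ i, htSm δ F (g i) h

/-- the complement of `F` is connected in the triangular lattice (so the zero skeleton is connected: standing assumption of the bounded height problems of the paper).
For `F n` of an inside approximation: `hg_compl_reach` (helper172). -/
def LimCoConn (F : Finset TV) : Prop :=
  ∀ u v : TV, u ∉ F → v ∉ F → Relation.ReflTransGen (fun a b => triAdj a b ∧ b ∉ F) u v

/-- `G` depends only on the heights OUTSIDE the finite set `S` -/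
def LimExt (S : Finset TV) (G : (TV → ℤ) → ℝ) : Prop :=
  ∀ h h' : TV → ℤ, (∀ u, u ∉ S → h u = h' u) → G h = G h'

/-- truncation at level `M` -/
noncomputable def limTr (M t : ℝ) : ℝ := max (-M) (min t M)

/-- depth of a point (SUP metric of `ℝ × ℝ`; between `1/√2` and `1` times the Euclidean depth) -/
noncomputable def limDep (D : Set (ℝ × ℝ)) (z : ℝ × ℝ) : ℝ := Metric.infDist z (frontier D)

/-! ### [SM] smearing -/

/-- TEX[prop:smearing] zero trace.  `N` = a radius free of boundary, `N'` = a radius which reaches the complement (the paper's `n` is the EXACT distance to the trace). -/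
def LimSM (x : ℝ) : Prop :=
  ∀ m : ℕ, ∃ C c0 : ℝ, 0 < C ∧ 0 < c0 ∧ ∀ (F : Finset TV) (u0 : TV) (a N N' : ℕ) (w : TV → ℝ),
    LimCoConn F → 1 ≤ a → (a : ℝ) ≤ c0 * N → latBall u0 N ⊆ F → ¬ latBall u0 N' ⊆ F → (∀ u, |w u| ≤ 1 / (a : ℝ) ^ 2) →
    htFz x F (fun h => (∑ u ∈ latBall u0 a, w u * (h u : ℝ)) ^ (2 * m)) ≤ C * (1 + Real.log (N' / a)) ^ m

/-! ### [BD] boundary moments -/

/-- TEX[prop:boundary-moments], eq. boundary:spectator-vanishing, FIXED INTERIOR spectators, uniform along the boundary; any nonnegative bump of comparable depth -/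
def LimBD (x : ℝ) (D : Set (ℝ × ℝ)) (δ : ℕ → ℝ) (F : ℕ → Finset TV) : Prop :=
  ∃ θ : ℝ, 0 < θ ∧ θ ≤ 1 / 4 ∧ ∀ (k : ℕ) (f : Fin k → ℝ × ℝ → ℝ), (∀ i, WkTest D (f i)) → ∀ A : ℝ, 0 < A → ∀ η : ℝ, 0 < η →
    ∃ a : ℝ, 0 < a ∧ ∀ z ∈ D, limDep D z < a → ∀ g : ℝ × ℝ → ℝ, Continuous g → (∀ y, 0 ≤ g y) → (∀ y, g y ≤ A / limDep D z ^ 2) →
      (∀ y, y ∉ wkBall z (θ * limDep D z) → g y = 0) →
      ∀ᶠ n in atTop, |htFz x (F n) fun h => htSm (δ n) (F n) g h * ∏ i, htSm (δ n) (F n) (f i) h| ≤ η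

/-! ### [BRK] the upper bracket package -/

/-- the arrangement of TEX[pins:local-geometry]: insertion in the open disc of radius `ρ/1000`, `q` zero total spectators in discs of radius `< ρ/(1000(q+1))` off the open disc of radius `ρ` -/
structure LimArr (D : Set (ℝ × ℝ)) (z0 : ℝ × ℝ) (ρ : ℝ) (q : ℕ) (φ : ℝ × ℝ → ℝ) (g : Fin q → ℝ × ℝ → ℝ) : Prop where
  rho_pos : 0 < ρ
  ball : wkBall z0 ρ ⊆ D
  phi_smooth : ContDiff ℝ ∞ φ
  phi_supp : ∀ y, (ρ / 1000) ^ 2 ≤ sqDist y z0 → y ∉ tsupport φ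
  g_cont : ∀ l, Continuous (g l)
  g_zero : ∀ l, ∫ y, g l y = 0
  g_supp : ∀ l, ∃ (c : ℝ × ℝ) (s : ℝ), 0 < s ∧ s < ρ / (1000 * (q + 1)) ∧ wkBall c s ⊆ D ∧ (∀ y ∈ wkBall c s, ρ ^ 2 ≤ sqDist y z0) ∧
    ∀ y, y ∉ wkBall c s → g l y = 0

/-- the upper bracket at one mesh, as seen by LIM: a finitely supported law `π` on heights which DOMINATES the true law (monotone observables; NO coupling), has window-free
moments, small means, and satisfies the insertion identity against truncated spectators.   (`π = ∑_t ν(t) htE x (latInt F) t`, traces `t ∈ {0,1}` supported in the windows.) -/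
structure LimBrkAt (x δ : ℝ) (F : Finset TV) {q : ℕ} (φ : ℝ × ℝ → ℝ) (g : Fin q → ℝ × ℝ → ℝ) (m : ℕ) (C M η : ℝ)
    (S : Finset (TV → ℤ)) (π : (TV → ℤ) → ℝ) : Prop where
  nonneg : ∀ h, 0 ≤ π h
  mass : ∑ h ∈ S, π h = 1
  dom : ∀ G : (TV → ℤ) → ℝ, HtMono G → htFz x F G ≤ ∑ h ∈ S, π h * G h
  mom0 : ∑ h ∈ S, π h * htSm δ F (lap2 φ) h ^ (2 * m) ≤ C
  mom : ∀ l, ∑ h ∈ S, π h * htSm δ F (g l) h ^ (2 * m) ≤ C
  col0 : ∑ h ∈ S, π h * htSm δ F (fun y => |lap2 φ y|) h ≤ η
  col : ∀ l, ∑ h ∈ S, π h * htSm δ F (fun y => |g l y|) h ≤ η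
  ins : |∑ h ∈ S, π h * (htSm δ F (lap2 φ) h * ∏ l, limTr M (htSm δ F (g l) h))| ≤ η

/-- [BRK]: order of quantifiers: arrangement, moment order, then `C` (window free), then truncation level and accuracy, then the mesh -/
def LimBRK (x : ℝ) (D : Set (ℝ × ℝ)) (δ : ℕ → ℝ) (F : ℕ → Finset TV) : Prop :=
  ∀ (z0 : ℝ × ℝ) (ρ : ℝ) (q : ℕ) (φ : ℝ × ℝ → ℝ) (g : Fin q → ℝ × ℝ → ℝ), LimArr D z0 ρ q φ g → ∀ m : ℕ, ∃ C : ℝ, ∀ M : ℝ, 0 < M → ∀ η : ℝ, 0 < η →
    ∀ᶠ n in atTop, ∃ (S : Finset (TV → ℤ)) (π : (TV → ℤ) → ℝ), LimBrkAt x (δ n) (F n) φ g m C M η S π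

/-- TEX[limit:transfer] at the discrete level: the insertion identity for the TRUE field -/
def LimIns (x : ℝ) (D : Set (ℝ × ℝ)) (δ : ℕ → ℝ) (F : ℕ → Finset TV) : Prop :=
  ∀ (z0 : ℝ × ℝ) (ρ : ℝ) (q : ℕ) (φ : ℝ × ℝ → ℝ) (g : Fin q → ℝ × ℝ → ℝ), LimArr D z0 ρ q φ g →
    Tendsto (fun n => htFz x (F n) fun h => htSm (δ n) (F n) (lap2 φ) h * ∏ l, htSm (δ n) (F n) (g l) h) atTop (𝓝 0)

/-! ### [PL] the plane package -/

/-- the plane law, part WITHOUT the constant `v` (producers DIS; consumed by PLN, MOM, LIM: no cycle with `cov`) -/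
structure LimPl0 (x : ℝ) : Prop where
  /-- TEX[prop:local-mixing]: the limit defining `htPl` exists on local gradient observables -/
  lim : ∀ (S : Finset TV) (G : (TV → ℤ) → ℝ), HtLoc S G → HtGrad G → Tendsto (fun R : ℕ => htE x (latBall 0 R) 0 G) atTop (𝓝 (htPl x G))
  /-- TEX[cor:conditional-plane-matching] + l.560-650 of 07-limit: approximate independence of the local increments from ALL the heights outside a hexagon -/
  mix : ∃ C κ : ℝ, 0 < C ∧ 0 < κ ∧ ∀ (F : Finset TV) (u0 : TV) (r L : ℕ), LimCoConn F → 1 ≤ r → C * r ≤ L → latBall u0 L ⊆ F →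
    ∀ G Ψ : (TV → ℤ) → ℝ, LimExt (latBall u0 L) G → (∀ h, |G h| ≤ 1) → HtLoc (latBall u0 r) Ψ → HtGrad Ψ → (∀ h, |Ψ h| ≤ 1) →
      |htFz x F (fun h => G h * Ψ h) - htFz x F G * htPl x Ψ| ≤ C * ((r : ℝ) / L) ^ κ

/-- the plane package: depends on `x` (and the constant `v = v(x)`) only -/
structure LimPlane (x v : ℝ) : Prop extends LimPl0 x where
  /-- TEX[prop:plane-moments] -/
  mom : ∀ m : ℕ, ∃ C : ℝ, ∀ (u0 : TV) (a : ℕ) (w : TV → ℝ), 1 ≤ a → (∀ u, |w u| ≤ 1 / (a : ℝ) ^ 2) → ∑ u ∈ latBall u0 a, w u = 0 →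
    htPl x (fun h => (∑ u ∈ latBall u0 a, w u * (h u : ℝ)) ^ (2 * m)) ≤ C
  /-- TEX[prop:plane-covariance], Laplacian form (`S n` = any finite set of faces containing all those which meet the two supports) -/
  cov : ∀ η g : ℝ × ℝ → ℝ, ContDiff ℝ ∞ η → HasCompactSupport η → ContDiff ℝ ∞ g → HasCompactSupport g → ∫ y, g y = 0 →
    ∀ (d : ℕ → ℝ) (S : ℕ → Finset TV), (∀ n, 0 < d n) → Tendsto d atTop (𝓝 0) →
      (∀ n w, (hexFace (d n) w ∩ (tsupport η ∪ tsupport g)).Nonempty → w ∈ S n) →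
      Tendsto (fun n => htPl x fun h => latPair (d n) (fun y => -lap2 η y) (S n) h * latPair (d n) g (S n) h) atTop (𝓝 (v * ∫ y, η y * g y))

/-- rescaled cutoff `η((· - y0)/r)` -/
noncomputable def limSc (η : ℝ × ℝ → ℝ) (y0 : ℝ × ℝ) (r : ℝ) (y : ℝ × ℝ) : ℝ := η (r⁻¹ • (y - y0))

/-- TEX[eq:limit-plane-factorization] at the discrete level, for the pair `(-Δ η_r, r⁻² β_r)`: mesh first, then `r → 0`, UNIFORMLY in the centre `y0 ∈ K0`
(the threshold in `n` may depend on everything).  Spectators: ARBITRARY tests vanishing on all the discs `wkBall y0 R0`, `y0 ∈ K0`. -/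
def LimDec (x v : ℝ) (D : Set (ℝ × ℝ)) (δ : ℕ → ℝ) (F : ℕ → Finset TV) : Prop :=
  ∀ (K0 : Set (ℝ × ℝ)) (R0 : ℝ), IsCompact K0 → 0 < R0 → (∀ y0 ∈ K0, wkBall y0 R0 ⊆ D) →
    ∀ (k : ℕ) (f : Fin k → ℝ × ℝ → ℝ), (∀ i, WkTest D (f i)) → (∀ i, ∀ y0 ∈ K0, ∀ y ∈ wkBall y0 R0, f i y = 0) →
    ∀ η β : ℝ × ℝ → ℝ, ContDiff ℝ ∞ η → HasCompactSupport η → ContDiff ℝ ∞ β → HasCompactSupport β → ∫ y, β y = 0 →
    ∀ ε : ℝ, 0 < ε → ∃ r0 : ℝ, 0 < r0 ∧ ∀ y0 ∈ K0, ∀ r : ℝ, 0 < r → r < r0 → ∀ᶠ n in atTop,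
      |(htFz x (F n) fun h => htSm (δ n) (F n) (fun y => -lap2 (limSc η y0 r) y) h * htSm (δ n) (F n) (fun y => (r ^ 2)⁻¹ * limSc β y0 r y) h *
          ∏ i, htSm (δ n) (F n) (f i) h) - v * (∫ y, η y * β y) * limM x (δ n) (F n) f| ≤ ε

/-! ### output -/

/-- the output of LIM: all moments of the smeared field converge to the Wick numbers of variance `v ∫ f u` -/
def LimOut (x v : ℝ) : Prop :=
  ∀ (D : Set (ℝ × ℝ)), IsC2JordanDomain D → ∀ (δ : ℕ → ℝ) (F : ℕ → Finset TV), IsInsideApprox D δ F →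
    ∀ f : ℝ × ℝ → ℝ, ContDiff ℝ ∞ f → HasCompactSupport f → tsupport f ⊆ D →
    ∀ u : ℝ × ℝ → ℝ, ContDiffOn ℝ 2 u D → ContinuousOn u (closure D) → (∀ z ∈ frontier D, u z = 0) → (∀ z ∈ D, -lap2 u z = f z) →
    ∀ k : ℕ, Tendsto (fun n => htFz x (F n) fun h => htSm (δ n) (F n) f h ^ k) atTop (𝓝 (tmmWick (v * ∫ z in D, f z * u z) k))

end Claimed.Agent.R291
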