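import Claimed.Agent.R291.Defs.Lim
import Claimed.Agent.R291.Defs.Mom

/-!
# Row 291 (S0539), Defs/Pin : THE INTERFACE OF UNIT PIN (05-pins.tex)      (owner helper34, head of PIN; prefix `pin_`, defs `pin*`/`Pin*`)

Typed on the HT vocabulary (`Defs/Lat`, `Defs/Ht`) and on `LimArr`, `limTr` of `Defs/Lim`.  No spin, no cell, no plane law, no curve parameter crosses this interface.
Design notes: `git show origin/helper34:notes/R291/sec5_34.md`, `git show origin/helper48:notes/R291/sec5b_48.md`.

* `PinTr01 δ F P r t`      `t` is an UPPER BRACKET TRACE: values in `{0,1}`, `0` off the boundary layer `latBd F`, `0` at every site whose centre is outside the open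
                           Euclidean discs of radius `r` around the points of `P` (the exceptional windows)                              TEX[pins:trace-intervals]
* `PinTrLaw δ F P r T ν`   a finitely supported probability law on such traces
* `pinMix x F T ν G`       the mixture `∑_t ν(t) E_{Gibbs(F,t)} G` = expectation in the upper filled bracket                             TEX[def:brackets], TEX[pins:bracket-order]
* `PinIns x D δ F`         OUTPUT of PIN: the bracket insertion identity                                                                 TEX[prop:bracket-insertion], TEX[pins:local-geometry]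
* `PinVan x D δ F`         INPUT of the glue `exit_lim_brk`, producer BDY (helper176, his [COL])                                          TEX[prop:bracket-collapse]
* `PinMomT x D δ F`        INPUT of the glue, producer MOM/LIM: moments of a fixed test, uniformly in the trace `|t| ≤ 1`                 TEX[prop:smearing], last sentence of TEX[pins:bracket-order]

THE PLANE LAW WITH PINS (design D4 of helper48: absolute heights, no spin, no phase):
* `pinI p`                 indicator of a proposition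
* `PinAbs G D h`           ABSOLUTE upper pin: `h ∈ {0,1}` on `G`, `h = 0` on `D`;   `PinGr` = up to ANY integer shift (gradient event);   `PinLoc` = up to a shift in `4ℤ` (the spin event
                           `B = +` on `G`, `W = +` on `D` when `G` is connected and meets `D`);   `PinSp G D h` = the spin event itself (`G` arbitrary)
* `pinHat x K`             `htPl x (h ↦ ∑_{c ∈ ℤ} K (h + c))`  : the sigma-finite plane measure on absolute heights (for height-localized `K`)
* `pinPer x K`             `htPl x (h ↦ 1/4 ∑_{c < 4} K (h + c))` : the plane PAIR law of the paper (for 4-periodic `K`)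
* `PinNeck κ n0 N K U`     a NECKLACE in the collar `U \ K` (146's (PRIM)+(N));   `PinFam κ n0 N G D U`  a family of separated obstacles with necklaces          TEX[prop:rare-pins]
-/

set_option autoImplicit false

namespace Claimed.Agent.R291

open MeasureTheory Filter Topology Set
open Claims Claims.C0467

/-- an upper bracket trace -/
structure PinTr01 (δ : ℝ) (F : Finset TV) (P : Finset (ℝ × ℝ)) (r : ℝ) (t : TV → ℤ) : Prop where
  val : ∀ u, t u = 0 ∨ t u = 1
  bd : ∀ u, u ∉ latBd F → t u = 0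
  win : ∀ u, (∀ c ∈ P, r ^ 2 ≤ sqDist (triPos δ u) c) → t u = 0

/-- a finitely supported probability law on upper bracket traces -/
structure PinTrLaw (δ : ℝ) (F : Finset TV) (P : Finset (ℝ × ℝ)) (r : ℝ) (T : Finset (TV → ℤ)) (ν : (TV → ℤ) → ℝ) : Prop where
  nonneg : ∀ t, 0 ≤ ν t
  mass : ∑ t ∈ T, ν t = 1
  tr : ∀ t ∈ T, PinTr01 δ F P r t

/-- expectation in the mixture of the weighted height laws with the traces `t ∈ T` -/
noncomputable def pinMix (x : ℝ) (F : Finset TV) (T : Finset (TV → ℤ)) (ν : (TV → ℤ) → ℝ) (G : (TV → ℤ) → ℝ) : ℝ :=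
  ∑ t ∈ T, ν t * htE x (latInt F) t G

/-- OUTPUT of PIN.  Order of quantifiers: arrangement, then the finite set `P` of window centres on the boundary, then the window radius `r`, then the trace laws,
then the truncation level, then the mesh. -/
def PinIns (x : ℝ) (D : Set (ℝ × ℝ)) (δ : ℕ → ℝ) (F : ℕ → Finset TV) : Prop :=
  ∀ (z0 : ℝ × ℝ) (ρ : ℝ) (q : ℕ) (φ : ℝ × ℝ → ℝ) (g : Fin q → ℝ × ℝ → ℝ), LimArr D z0 ρ q φ g →
    ∃ P : Finset (ℝ × ℝ), (∀ c ∈ P, c ∈ frontier D) ∧ ∀ r : ℝ, 0 < r →
      ∃ (T : ℕ → Finset (TV → ℤ)) (ν : ℕ → (TV → ℤ) → ℝ), (∀ᶠ n in atTop, PinTrLaw (δ n) (F n) P r (T n) (ν n)) ∧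
        ∀ M : ℝ, 0 < M → Tendsto (fun n => pinMix x (F n) (T n) (ν n) fun h =>
          htSm (δ n) (F n) (lap2 φ) h * ∏ l, limTr M (htSm (δ n) (F n) (g l) h)) atTop (𝓝 0)

/-- [COL] of helper176: the mean of a nonnegative test is small, uniformly in the bracket trace, when the windows are small -/
def PinVan (x : ℝ) (D : Set (ℝ × ℝ)) (δ : ℕ → ℝ) (F : ℕ → Finset TV) : Prop :=
  ∀ P : Finset (ℝ × ℝ), (∀ c ∈ P, c ∈ frontier D) → ∀ ψ : ℝ × ℝ → ℝ, WkTest D ψ → (∀ y, 0 ≤ ψ y) → ∀ η : ℝ, 0 < η →
    ∃ r : ℝ, 0 < r ∧ ∀ᶠ n in atTop, ∀ t : TV → ℤ, PinTr01 (δ n) (F n) P r t → htE x (latInt (F n)) t (htSm (δ n) (F n) ψ) ≤ η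

/-- moments of a fixed test, uniformly in the trace -/
def PinMomT (x : ℝ) (D : Set (ℝ × ℝ)) (δ : ℕ → ℝ) (F : ℕ → Finset TV) : Prop :=
  ∀ ψ : ℝ × ℝ → ℝ, WkTest D ψ → ∀ m : ℕ, ∃ C : ℝ, ∀ᶠ n in atTop, ∀ t : TV → ℤ, (∀ u, t u = 0 ∨ t u = 1) → (∀ u, u ∉ latBd (F n) → t u = 0) →
    htE x (latInt (F n)) t (fun h => htSm (δ n) (F n) ψ h ^ (2 * m)) ≤ C

/-! ### the plane law with pins -/

open Classical in
/-- indicator of a proposition -/
noncomputable def pinI (p : Prop) : ℝ := if p then 1 else 0

/-- absolute upper pin: `h ∈ {0,1}` on `G`, `h = 0` on `D` -/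
def PinAbs (G D : Finset TV) (h : TV → ℤ) : Prop := (∀ u ∈ G, h u = 0 ∨ h u = 1) ∧ ∀ u ∈ D, h u = 0

/-- the pin up to an arbitrary integer shift: a GRADIENT event -/
def PinGr (G D : Finset TV) (h : TV → ℤ) : Prop := ∃ t : ℤ, PinAbs G D (fun u => h u - t)

/-- the pin up to a shift in `4ℤ`: a 4-periodic event -/
def PinLoc (G D : Finset TV) (h : TV → ℤ) : Prop := ∃ t : ℤ, PinAbs G D (fun u => h u - 4 * t)

/-- the spin event `B = +` on `G`, `W = +` on `D` -/
def PinSp (G D : Finset TV) (h : TV → ℤ) : Prop := (∀ u ∈ G, momB (h u)) ∧ ∀ u ∈ D, h u % 4 = 0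

/-- the sigma-finite plane measure on absolute heights -/
noncomputable def pinHat (x : ℝ) (K : (TV → ℤ) → ℝ) : ℝ := htPl x fun h => ∑ᶠ c : ℤ, K fun u => h u + c

/-- the plane pair law (4-periodic observables of the absolute height) -/
noncomputable def pinPer (x : ℝ) (K : (TV → ℤ) → ℝ) : ℝ := htPl x fun h => (∑ c ∈ Finset.range 4, K fun u => h u + (c : ℤ)) / 4

/-- `K` is 4-periodic -/
def PinP4 (K : (TV → ℤ) → ℝ) : Prop := ∀ h : TV → ℤ, K (fun u => h u + 4) = K h

/-- INTERNAL EXIT of the second half of Sec. 5 (helper48, `pin_ins_filled`) + the window geometry (W1) (helper74): the insertion identity in the plane law conditioned on the FILLED upper pin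
`h ∈ {0,1}` on `latBd (F n)`, `h = 0` on `Dn n`;  every boundary site which is not a double pin lies in a window. -/
def PinFilled (x : ℝ) (D : Set (ℝ × ℝ)) (δ : ℕ → ℝ) (F : ℕ → Finset TV) : Prop :=
  ∀ (z0 : ℝ × ℝ) (ρ : ℝ) (q : ℕ) (φ : ℝ × ℝ → ℝ) (g : Fin q → ℝ × ℝ → ℝ), LimArr D z0 ρ q φ g →
    ∃ P : Finset (ℝ × ℝ), (∀ c ∈ P, c ∈ frontier D) ∧ ∀ r : ℝ, 0 < r →
      ∃ Dn : ℕ → Finset TV,
        (∀ᶠ n in atTop, Dn n ⊆ latBd (F n) ∧ (Dn n).Nonempty ∧ ∀ u ∈ latBd (F n), u ∉ Dn n → ∃ c ∈ P, sqDist (triPos (δ n) u) c < r ^ 2) ∧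
        ∀ M : ℝ, 0 < M → Tendsto (fun n =>
          pinHat x (fun h => pinI (PinAbs (latBd (F n)) (Dn n) h) * (htSm (δ n) (F n) (lap2 φ) h * ∏ l, limTr M (htSm (δ n) (F n) (g l) h))) /
            pinHat x fun h => pinI (PinAbs (latBd (F n)) (Dn n) h)) atTop (𝓝 0)

/-- a necklace of at most `N` lattice balls of radii `≥ n0` in the collar `U \ K`: the `κ`-enlarged balls stay in the collar, every lattice path from `K` to the complement of `U` meets one of the small balls -/
def PinNeck (κ n0 N : ℕ) (K U : Finset TV) : Prop :=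
  ∃ J : Finset (TV × ℕ), J.card ≤ N ∧ (∀ p ∈ J, n0 ≤ p.2 ∧ latBall p.1 (κ * p.2 + 2) ⊆ U \ K) ∧
    ∀ (Q : Set TV) (a b : TV), a ∈ K → b ∉ U → TscR tscG Q a b → ∃ p ∈ J, (Q ∩ ↑(latBall p.1 p.2)).Nonempty

/-- a pinned group: first colour sites `G` (connected), double pins `D ⊆ G` (connected, nonempty) -/
structure PinOb (G D : Finset TV) : Prop where
  sub : D ⊆ G
  ne : D.Nonempty
  connG : TscConn tscG (G : Set TV)
  connD : TscConn tscG (D : Set TV)

/-- a family of separated obstacles with necklaces -/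
structure PinFam (κ n0 N : ℕ) {k : ℕ} (G D U : Fin k → Finset TV) : Prop where
  ob : ∀ i, PinOb (G i) (D i)
  neck : ∀ i, PinNeck κ n0 N (G i) (U i)
  far : ∀ i j, i ≠ j → ∀ u ∈ U i, ∀ v ∈ U j, 4 ≤ latDist u v

end Claimed.Agent.R291
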