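import Claimed.Agent.R291.Defs.Pin
import Claimed.Agent.R291.Pin.Win

/-!
# Row 291 (S0539), Defs/PinTop : THE TOP CUT OF `exit_pin_filled`      (owner helper34, head of PIN)

The concrete instance on which the two halves of the second part of Sec. 5 meet.  Vocabulary of helper74 (`Pin/Geo`, `Pin/Win`): sorted angles `t` of the marked parameters `CC0`, arcs `pinGeoArc t a i`, visited faces `pinWinV`.

* `PinStd …`            the standing data of ONE arrangement: parametrisations, two levels `lm < lp` of the grid which miss the spectator disks, `CC0` = the parameters of the two levels       TEX[pins:local-geometry]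
* `pinGp δ F γs t a n i`   the boundary group `i` at gap `a` and mesh `n` (`a = ε`: the double pins of the group)                                                                 TEX[pins:trace-intervals]
* `pinLab … m ε n`      all the double pins
* `pinObs δ F φ g M n`  the observable `X_n F_n`
* `PinSepAt … a ε`      SEPARATED INSERTION WITH COMMON OFFSET at the fixed gap `a` (producer helper48, `Exit/PinSep`)                    TEX[pins:three-moves], (5.28) = TEX[pins:common-offset-numerator]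
* `PinFillAt … ε`       the insertion identity for the filled pin (producer helper76, `Exit/PinGap`)                                     TEX[pins:gap-closing], TEX[prop:bracket-insertion]
-/

set_option autoImplicit false

namespace Claimed.Agent.R291

open MeasureTheory Filter Topology Set
open Claims Claims.C0467

/-- the standing data of one arrangement -/
structure PinStd (D : Set (ℝ × ℝ)) (δ : ℕ → ℝ) (F : ℕ → Finset TV) (γ : Circle → ℝ × ℝ) (γs : ℕ → Circle → ℝ × ℝ) (CC0 : Finset Circle) (t : ℕ → ℝ)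
    (z0 : ℝ × ℝ) (ρ : ℝ) (q : ℕ) (φ : ℝ × ℝ → ℝ) (g : Fin q → ℝ × ℝ → ℝ) (lm lp : ℝ) : Prop where
  dom : IsC2JordanDomain D
  dat : PinWinDat D δ F γ γs CC0 t
  arr : LimArr D z0 ρ q φ g
  hlp : z0.2 + ρ / 40 < lp ∧ lp < z0.2 + ρ / 20
  hlm : z0.2 - ρ / 20 < lm ∧ lm < z0.2 - ρ / 40
  marks : ∀ θ, θ ∈ CC0 ↔ (γ θ).2 = lp ∨ (γ θ).2 = lm
  spec : ∀ l, ∃ (c : ℝ × ℝ) (s : ℝ), 0 < s ∧ wkBall c s ⊆ D ∧ (∀ y ∈ wkBall c s, ρ ^ 2 ≤ sqDist y z0) ∧ (∀ y, y ∉ wkBall c s → g l y = 0) ∧
    s < |lp - c.2| ∧ s < |lm - c.2|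

/-- the boundary group `i` at gap `a` and mesh `n` -/
noncomputable def pinGp (δ : ℕ → ℝ) (F : ℕ → Finset TV) (γs : ℕ → Circle → ℝ × ℝ) (t : ℕ → ℝ) (a : ℝ) (n i : ℕ) : Finset TV :=
  pinWinV (δ n) (F n) (γs n) (pinGeoArc t a i)

/-- all the double pins -/
noncomputable def pinLab (δ : ℕ → ℝ) (F : ℕ → Finset TV) (γs : ℕ → Circle → ℝ × ℝ) (t : ℕ → ℝ) (m : ℕ) (ε : ℝ) (n : ℕ) : Finset TV :=
  (Finset.range m).biUnion (pinGp δ F γs t ε n)

/-- the observable `X_n F_n` -/
noncomputable def pinObs (δ : ℕ → ℝ) (F : ℕ → Finset TV) {q : ℕ} (φ : ℝ × ℝ → ℝ) (g : Fin q → ℝ × ℝ → ℝ) (M : ℝ) (n : ℕ) (h : TV → ℤ) : ℝ :=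
  htSm (δ n) (F n) (lap2 φ) h * ∏ l, limTr M (htSm (δ n) (F n) (g l) h)

/-- separated insertion with common offset at the fixed gap `a`, normalised by the product of the individual pin probabilities -/
def PinSepAt (x : ℝ) (δ : ℕ → ℝ) (F : ℕ → Finset TV) (γs : ℕ → Circle → ℝ × ℝ) (t : ℕ → ℝ) (m : ℕ) {q : ℕ} (φ : ℝ × ℝ → ℝ) (g : Fin q → ℝ × ℝ → ℝ)
    (a ε : ℝ) : Prop :=
  ∀ M : ℝ, 0 < M → Tendsto (fun n =>
    pinHat x (fun h => (∏ i ∈ Finset.range m, pinI (PinAbs (pinGp δ F γs t a n i) (pinGp δ F γs t ε n i) h)) * pinObs δ F φ g M n h) /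
      ∏ i ∈ Finset.range m, pinPer x fun h => pinI (PinLoc (pinGp δ F γs t a n i) (pinGp δ F γs t ε n i) h)) atTop (𝓝 0)

/-- the insertion identity for the filled pin -/
def PinFillAt (x : ℝ) (δ : ℕ → ℝ) (F : ℕ → Finset TV) (γs : ℕ → Circle → ℝ × ℝ) (t : ℕ → ℝ) (m : ℕ) {q : ℕ} (φ : ℝ × ℝ → ℝ) (g : Fin q → ℝ × ℝ → ℝ)
    (ε : ℝ) : Prop :=
  ∀ M : ℝ, 0 < M → Tendsto (fun n =>
    pinHat x (fun h => pinI (PinAbs (latBd (F n)) (pinLab δ F γs t m ε n) h) * pinObs δ F φ g M n h) /
      pinHat x fun h => pinI (PinAbs (latBd (F n)) (pinLab δ F γs t m ε n) h)) atTop (𝓝 0)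

/-- the equation lemmas of the definitions of this file are generated HERE (RULES.md, rule 6) -/
theorem pin_top_eqns_cite : True := by
  have := @pinGp.eq_1
  have := @pinLab.eq_1
  have := @pinObs.eq_1
  have := @PinSepAt.eq_1
  have := @PinFillAt.eq_1
  trivial

end Claimed.Agent.R291
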