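import Claimed.Agent.R291.Defs.Ht

/-!
# Row 291 (S0539), Defs/Pln : VOCABULARY OF UNIT PLN (Sec. 4, plane covariance)      (owner helper94; prefix `pln`)

MODEL FREE.  The only datum is the variogram `a : TV → ℝ`, `a u = E (H u - H 0)^2` of the plane law.
TEX[04-plane.tex].  Design note: `origin/helper94:notes/R291/sec4_94.md`.

* `plnGam a b b'` = covariance form `-(1/2) ∑∑ b_u b'_v a (u - v)` on finitely supported arrays (meaningful on total mass zero)
* `plnW δ f` = the array of face weights `latW δ f` (zero if the support is infinite)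
* `plnTr w b`, `plnMap σ b` = translated / transported arrays;  `plnRow j` = reflection in the site row `n = j`
* `plnPh p u = p · pos u`, `plnHat b p = ∑ b_u e^{i p · pos u}` (Euclidean frequency `p = (k, l)`)
* `PlnIn a` = the six facts of the model consumed by Sec. 4
* `PlnSpec a Cf K` = Lemma 4.3 (B1, helper179): spectral measure in the box chart
* `PlnMix Cf ν` = Lemma 4.4 (B2, helper94): Cauchy mixture in the horizontal chart, Cayley form
* `PlnPS Cf c` = Lemmas 4.6-4.8 (B3-I, helper140): full spectral scaling limit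
* `PlnHt x` = what the instance B5 consumes on the plane functional `htPl x` (DIS)
* `PlnPC G v`, `PlnRN G` = Props 4.1 and 4.10 in the forms consumed by LIM and PIN (B3-II, helper90)
-/

set_option autoImplicit false

namespace Claimed.Agent.R291

open Claims Claims.C0467 MeasureTheory Filter Topology
open scoped ENNReal

/-- covariance form of a variogram -/
noncomputable def plnGam (a : TV → ℝ) (b b' : TV →₀ ℝ) : ℝ :=
  -(1 / 2) * b.sum fun u x => b'.sum fun v y => x * y * a (u - v)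

open Classical in
/-- the array of face weights of a test function -/
noncomputable def plnW (δ : ℝ) (f : ℝ × ℝ → ℝ) : TV →₀ ℝ :=
  if h : (Function.support (latW δ f)).Finite then Finsupp.ofSupportFinite (latW δ f) h else 0

/-- transport of an array by a map of the lattice -/
noncomputable def plnMap (σ : TV → TV) (b : TV →₀ ℝ) : TV →₀ ℝ := b.mapDomain σ

/-- translation of an array -/
noncomputable def plnTr (w : TV) (b : TV →₀ ℝ) : TV →₀ ℝ := b.mapDomain (· + w)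

/-- reflection of the lattice in the site row `n = j`: `(m, n) ↦ (m + n - j, 2 j - n)` -/
def plnRow (j : ℤ) (u : TV) : TV := (u.1 + u.2 - j, 2 * j - u.2)

/-- the gradient array `δ_u - δ_0` -/
noncomputable def plnG (u : TV) : TV →₀ ℝ := Finsupp.single u 1 - Finsupp.single 0 1

/-- `p · pos u`, `pos (m, n) = (m + n / 2, n √3 / 2)` -/
noncomputable def plnPh (p : ℝ × ℝ) (u : TV) : ℝ :=
  p.1 * ((u.1 : ℝ) + (u.2 : ℝ) / 2) + p.2 * ((u.2 : ℝ) * Real.sqrt 3 / 2)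

/-- lattice Fourier transform of an array at the Euclidean frequency `p` -/
noncomputable def plnHat (b : TV →₀ ℝ) (p : ℝ × ℝ) : ℂ :=
  b.sum fun u x => (x : ℂ) * Complex.exp (Complex.I * (plnPh p u : ℂ))

/-- Euclidean square norm -/
def plnSq (p : ℝ × ℝ) : ℝ := p.1 ^ 2 + p.2 ^ 2

/-- rotation by `π / 3` of the frequency plane -/
noncomputable def plnRot (p : ℝ × ℝ) : ℝ × ℝ :=
  (p.1 / 2 - Real.sqrt 3 / 2 * p.2, Real.sqrt 3 / 2 * p.1 + p.2 / 2)

/-- the lattice symbol `∑_j |e^{i p · e_j} - 1|^2 = 6 - 2 cos θ₁ - 2 cos θ₂ - 2 cos (θ₂ - θ₁)` -/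
noncomputable def plnDD (p : ℝ × ℝ) : ℝ :=
  6 - 2 * Real.cos (plnPh p (1, 0)) - 2 * Real.cos (plnPh p (0, 1)) - 2 * Real.cos (plnPh p (-1, 1))

/-- the box chart of the reciprocal torus: `θ₁ = k`, `θ₂ = (k + √3 l) / 2`, both in `(-π, π]` -/
def plnBox : Set (ℝ × ℝ) :=
  {p | p.1 ∈ Set.Ioc (-Real.pi) Real.pi ∧ (p.1 + Real.sqrt 3 * p.2) / 2 ∈ Set.Ioc (-Real.pi) Real.pi}

/-- the standard Cauchy law -/
noncomputable def plnCau : Measure ℝ :=
  volume.withDensity fun t => ENNReal.ofReal (1 / (Real.pi * (1 + t ^ 2)))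

/-- inverse Cayley rectification of the normal frequency: `ℓ y = (2 / √3) arctan (√3 y / 2)` -/
noncomputable def plnEll (y : ℝ) : ℝ := 2 / Real.sqrt 3 * Real.arctan (Real.sqrt 3 / 2 * y)

/-- reduction of the normal frequency modulo `P = 2 π / √3` to the centred period `(-P/2, P/2]` -/
noncomputable def plnRed (l : ℝ) : ℝ :=
  toIocMod (show (0 : ℝ) < 2 * Real.pi / Real.sqrt 3 by positivity) (-(Real.pi / Real.sqrt 3)) l

/-- **the facts of the model consumed by Sec. 4** -/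
structure PlnIn (a : TV → ℝ) : Prop where
  /-- `a 0 = 0` -/
  zero : a 0 = 0
  /-- variances are nonnegative -/
  psd : ∀ b : TV →₀ ℝ, latTot b = 0 → 0 ≤ plnGam a b b
  /-- invariance under the rotation by 60 degrees -/
  rot : ∀ u, a (latRot u) = a u
  /-- invariance under the reflection in the horizontal axis -/
  refl : ∀ u, a (latRefl u) = a u
  /-- TEX[prop:reflection-transfer] reflection positivity across the row `n = 0`, linear observables of the upper half plane -/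
  rp : ∀ b : TV →₀ ℝ, latTot b = 0 → (∀ u ∈ b.support, 0 ≤ u.2) → 0 ≤ plnGam a (plnMap latRefl b) b
  /-- TEX[prop:plane-moments], `p = 2` -/
  sm : ∃ K : ℝ, ∀ N : ℕ, 1 ≤ N → ∀ b : TV →₀ ℝ, latTot b = 0 → (∀ u ∈ b.support, latN u ≤ N) →
    (∀ u, |b u| ≤ 1 / (N : ℝ) ^ 2) → plnGam a b b ≤ K
  /-- TEX[lem:nondegeneracy] -/
  nd : ∃ f : ℝ × ℝ → ℝ, ContDiff ℝ ((⊤ : ℕ∞) : WithTop ℕ∞) f ∧ HasCompactSupport f ∧ ∫ z, f z = 0 ∧
    ∃ c : ℝ, 0 < c ∧ ∀ᶠ δ in 𝓝[>] (0 : ℝ), c ≤ plnGam a (plnW δ f) (plnW δ f)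

/-- **TEX[plane:lem:spectrum]** (B1): the punctured spectral measure, in the box chart -/
structure PlnSpec (a : TV → ℝ) (Cf : Measure (ℝ × ℝ)) (K : ℝ) : Prop where
  /-- carried by the box -/
  box : Cf plnBoxᶜ = 0
  /-- no mass at the origin -/
  zero : Cf {0} = 0
  /-- squared transforms of zero-total arrays are integrable -/
  int : ∀ b : TV →₀ ℝ, latTot b = 0 → Integrable (fun p => ‖plnHat b p‖ ^ 2) Cf
  /-- (4.3), no tilt term, with a translation -/
  rep : ∀ (b : TV →₀ ℝ) (w : TV), latTot b = 0 →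
    ((plnGam a b (plnTr w b) : ℝ) : ℂ) = ∫ p, Complex.exp (Complex.I * (plnPh p w : ℂ)) * ((‖plnHat b p‖ ^ 2 : ℝ) : ℂ) ∂Cf
  /-- rotation invariance near the origin -/
  rot : ∀ G : ℝ × ℝ → ℝ≥0∞, Measurable G → (∀ p, 1 ≤ plnSq p → G p = 0) →
    ∫⁻ p, G (plnRot p) ∂Cf = ∫⁻ p, G p ∂Cf
  /-- (4.4) annuli -/
  ann : ∀ r : ℝ, 0 < r → r ≤ 1 / 2 → Cf {p | r ^ 2 ≤ plnSq p ∧ plnSq p ≤ 4 * r ^ 2} ≤ ENNReal.ofReal K
  /-- the symbol times `Cf` is finite (`= μ₁ + μ₂ + μ₃`) -/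
  far : ∫⁻ p, ENNReal.ofReal (plnDD p) ∂Cf ≤ ENNReal.ofReal K

/-- **TEX[plane:lem:mixture]** (B2): on `k ≠ 0` the projected measure is the law of `(k, ℓ (s t))`, `t` standard Cauchy -/
structure PlnMix (Cf ν : Measure (ℝ × ℝ)) : Prop where
  sfin : SFinite ν
  supp : ν {q | ¬ (q.1 ≠ 0 ∧ q.1 ∈ Set.Ioc (-Real.pi) Real.pi ∧ 0 ≤ q.2 ∧ q.2 ≤ 2 / Real.sqrt 3)} = 0
  mix : ∀ G : ℝ × ℝ → ℝ≥0∞, Measurable G →
    ∫⁻ p in {p | p.1 ≠ 0}, G (p.1, plnRed p.2) ∂Cf = ∫⁻ q, ∫⁻ t, G (q.1, plnEll (q.2 * t)) ∂plnCau ∂ν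

/-- **TEX[plane:lem:unique]** (B3-I): the full spectral scaling limit `|p|^2 C_δ → c dp` -/
def PlnPS (Cf : Measure (ℝ × ℝ)) (c : ℝ) : Prop :=
  ∀ Ψ : ℝ × ℝ → ℝ, Continuous Ψ → HasCompactSupport Ψ →
    Tendsto (fun δ : ℝ => ∫ p, Ψ (δ⁻¹ • p) * (plnSq p / δ ^ 2) ∂Cf) (𝓝[>] 0) (𝓝 (c * ∫ p, Ψ p))

/-- **TEX[prop:plane-covariance]**, Laplacian form (the form consumed by LIM) -/
def PlnPC (G : (TV →₀ ℝ) → (TV →₀ ℝ) → ℝ) (v : ℝ) : Prop :=
  ∀ η g : ℝ × ℝ → ℝ, ContDiff ℝ ((⊤ : ℕ∞) : WithTop ℕ∞) η → HasCompactSupport η →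
    ContDiff ℝ ((⊤ : ℕ∞) : WithTop ℕ∞) g → HasCompactSupport g → ∫ z, g z = 0 →
    Tendsto (fun δ : ℝ => G (plnW δ (lap2 η)) (plnW δ g)) (𝓝[>] 0) (𝓝 (-v * ∫ z, η z * g z))

/-- **TEX[prop:reflection-null]**: fixed test strictly above the limit line, horizontal site rows `n = j δ` converging to it -/
def PlnRN (G : (TV →₀ ℝ) → (TV →₀ ℝ) → ℝ) : Prop :=
  ∀ (φ : ℝ × ℝ → ℝ) (y0 m : ℝ) (j : ℝ → ℤ), ContDiff ℝ ((⊤ : ℕ∞) : WithTop ℕ∞) φ → HasCompactSupport φ → 0 < m →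
    (∀ z ∈ tsupport φ, y0 + m ≤ z.2) →
    Tendsto (fun δ : ℝ => Real.sqrt 3 / 2 * δ * (j δ : ℝ)) (𝓝[>] 0) (𝓝 y0) →
    Tendsto (fun δ : ℝ => G (plnMap (plnRow (j δ)) (plnW δ (lap2 φ))) (plnW δ (lap2 φ))) (𝓝[>] 0) (𝓝 0)

/-- what B5 consumes from DIS on the plane functional -/
structure PlnHt (x : ℝ) : Prop where
  /-- TEX[prop:local-mixing]: the limit defining `htPl` exists on local gradient observables -/
  lim : ∀ (S : Finset TV) (G : (TV → ℤ) → ℝ), HtLoc S G → HtGrad G →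
    Tendsto (fun R : ℕ => htE x (latBall 0 R) 0 G) atTop (𝓝 (htPl x G))
  /-- translation invariance of the plane law -/
  trans : ∀ (S : Finset TV) (G : (TV → ℤ) → ℝ) (c : TV), HtLoc S G → HtGrad G →
    htPl x (fun h => G (fun u => h (u + c))) = htPl x G

/-- the equation lemmas of the definitions of this file, cited ONCE here (CI rule of helper40) -/
theorem pln_eqns_cite : True := by
  have := @plnGam.eq_1
  have := @plnW.eq_1
  have := @plnMap.eq_1
  have := @plnTr.eq_1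
  have := @plnRow.eq_1
  have := @plnG.eq_1
  have := @plnPh.eq_1
  have := @plnHat.eq_1
  have := @plnSq.eq_1
  have := @plnRot.eq_1
  have := @plnDD.eq_1
  have := @plnBox.eq_1
  have := @plnCau.eq_1
  have := @plnEll.eq_1
  have := @plnRed.eq_1
  have := @PlnPS.eq_1
  have := @PlnPC.eq_1
  have := @PlnRN.eq_1
  trivial

end Claimed.Agent.R291
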