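import Claimed.Agent.R291.Defs.RswStrip
import Claimed.Agent.R291.Ann.RswDict

/-!
# Row 291 (S0539), unit ANN, block A3 PART II (L), Defs/RswGeo : THE INTERFACE  RECORD <-> (L)      (pen: helper278, ruling of 24 07:54Z; prefix `rgo_`, defs `RsgGeo…`, `RsgCore…`)

TEX[annulus:RSW] TEX[annulus:gluing]      WHY: `HxrPair` + not `RsgT2` is TOO LITTLE for the strip estimate `RsgEst x D` (alerts of 182: hair / hole of `Q`; of 187: thin tip).   What saves the record is THICKNESS:
every cell of the layer `a` lies on the arc or touches the explored cluster `I`, no cell of `I` touches a free cell, `I` is joined inside `I` to the arc.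
* `RsgGeoD D I J ia ic w`   the index-lattice geometry of the strip data `D` with its two explored clusters (= `RdiGeo` of 182 for `M = hxrQ ..`, arcs `rsrSgL D.xm .. ia w`, `rsrSgR D.xM .. ic w`) + `I ⊆ AA`, `J ⊆ CC`, inside the box.   NO CLASS, NO `x`: pure index lattice.
* `RsgGeo D`                `∃ I J ia ic w, RsgGeoD D I J ia ic w`      = THE HYPOTHESIS `hg` of `rsg_est_tip`, `rsg_est_tube`, `rsg_H0_feas`, ..
* `RsgCoreA D i`, `RsgCoreC D i`   CORE cells: a cell of the solid side which, with its six neighbours, is off the free cells (so none of its sites lies in `Q`) = the DEEP form of the tips (`har`, `hcl` of `rsg_est_tip`).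
PRODUCER (record side) and ALL THE CONSUMER-FACING LEMMAS (GlStrip, TriSC, LAY, PclStrip = barriers, `hA`, `hC`, core cells on the thick axis): `Ann/RswGeo.lean` (278).
-/

set_option autoImplicit false

namespace Claimed.Agent.R291

open Relation Claims Claims.C0467

/-- the free cells of the strip data, as a set of indices -/
def rsgF (D : RsgDat) : Set TV := hxrQ D.y0 D.y1 D.xm D.xM D.a D.c

/-- the solid left side -/
def rsgAA (D : RsgDat) : Set TV := hxrAA D.y0 D.y1 D.xM D.a

/-- the solid right side -/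
def rsgCC (D : RsgDat) : Set TV := hxrCC D.y0 D.y1 D.xm D.c

/-- **the geometry of the strip data with its two explored clusters** (index lattice only) -/
structure RsgGeoD (D : RsgDat) (I J : Set TV) (ia ic w : ℤ) : Prop where
  geo : RdiGeo D.xm D.xM D.y0 D.y1 (rsgF D) (rsrSgL D.xm D.y0 D.y1 ia w) I D.a (rsrSgR D.xM D.y0 D.y1 ic w) J D.c
  IR : I ⊆ rswRect D.xm D.xM D.y0 D.y1
  JR : J ⊆ rswRect D.xm D.xM D.y0 D.y1
  IA : I ⊆ rsgAA D
  JC : J ⊆ rsgCC D

/-- **THE INTERFACE RECORD <-> (L)** -/
def RsgGeo (D : RsgDat) : Prop := ∃ (I J : Set TV) (ia ic w : ℤ), RsgGeoD D I J ia ic w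

/-- a CORE cell of the left side -/
def RsgCoreA (D : RsgDat) (i : TV) : Prop := i ∈ rsgAA D ∧ RdiIn (rsgF D) i

/-- a CORE cell of the right side -/
def RsgCoreC (D : RsgDat) (i : TV) : Prop := i ∈ rsgCC D ∧ RdiIn (rsgF D) i

theorem rgo_eqns_cite : True := by
  have := @rsgF.eq_1
  have := @rsgAA.eq_1
  have := @rsgCC.eq_1
  have := @RsgGeo.eq_1
  have := @RsgCoreA.eq_1
  have := @RsgCoreC.eq_1
  trivial

end Claimed.Agent.R291
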