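import Claimed.Agent.R291.Defs.Lim
import Claimed.Agent.R291.Wick.Green2

/-!
# Row 291 (S0539), Defs/Wick : THE CONTRACT OF THE ABSTRACT WICK IDENTITY      (owner helper108; prefix `wk_`, structure `WkData`)

Pure analysis on `ℝ × ℝ`.  `T : Multiset (ℝ × ℝ → ℝ) → ℝ` = all mixed moments of a limiting field
(instance of LIM: `T s = lim_U htFz x (F n) fun h => (s.map fun g => htSm (δ n) (F n) g h).prod`).
`WkData D v T` = what LIM owes (each field = one statement of Defs/Lim read along the ultrafilter):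
* `add`, `smul`      multilinearity on tests
* `hol`              Hoelder WITHOUT roots, on a multiset of pairs (test, size): `T (g^(2j)) ≤ B^(2j)` for every pair, `j` = number of pairs  ⟹  `|T (∏ g)| ≤ ∏ B`
* `mom_fix`          (A0) = `lim_sm_fixed`        * `mom_small`  (A1) = `lim_sm_small`
* `harm`             (A2loc) = conclusion of Lim/Chain (small spectators of ARBITRARY total far from the insertion)
* `bdry`             (A3) = `LimBD`                * `coll`       (A4) = `LimDec`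
CONCLUSION (`wk_main`, Wick/Main.lean):  `T (replicate (j+2) f) = (j+1) * v * (∫ z in D, f z * u z) * T (replicate j f)`.
-/

set_option autoImplicit false

namespace Claimed.Agent.R291

open MeasureTheory Filter Topology Set
open scoped ContDiff
open Claims Claims.C0467

/-- **What LIM owes to WICK.** -/
structure WkData (D : Set (ℝ × ℝ)) (v : ℝ) (T : Multiset (ℝ × ℝ → ℝ) → ℝ) : Prop where
  add : ∀ (g g' : ℝ × ℝ → ℝ) (s : Multiset (ℝ × ℝ → ℝ)), WkTest D g → WkTest D g' → (∀ k ∈ s, WkTest D k) →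
    T ((fun y => g y + g' y) ::ₘ s) = T (g ::ₘ s) + T (g' ::ₘ s)
  smul : ∀ (c : ℝ) (g : ℝ × ℝ → ℝ) (s : Multiset (ℝ × ℝ → ℝ)), WkTest D g → (∀ k ∈ s, WkTest D k) →
    T ((fun y => c * g y) ::ₘ s) = c * T (g ::ₘ s)
  /-- Hoelder without roots -/
  hol : ∀ s : Multiset ((ℝ × ℝ → ℝ) × ℝ),
    (∀ p ∈ s, WkTest D p.1 ∧ 0 ≤ p.2 ∧ T (Multiset.replicate (2 * Multiset.card s) p.1) ≤ p.2 ^ (2 * Multiset.card s)) →
    |T (s.map Prod.fst)| ≤ (s.map Prod.snd).prod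
  /-- (A0) -/
  mom_fix : ∀ (m : ℕ) (K : Set (ℝ × ℝ)), IsCompact K → K ⊆ D → ∃ C : ℝ, 0 < C ∧
    ∀ (M : ℝ) (g : ℝ × ℝ → ℝ), WkTest D g → (∀ y, |g y| ≤ M) → (∀ y, y ∉ K → g y = 0) → T (Multiset.replicate (2 * m) g) ≤ C * M ^ (2 * m)
  /-- (A1) -/
  mom_small : ∀ (m : ℕ) (K : Set (ℝ × ℝ)), IsCompact K → K ⊆ D → ∃ C r0 : ℝ, 0 < C ∧ 0 < r0 ∧ r0 ≤ 1 ∧
    ∀ z ∈ K, ∀ r : ℝ, 0 < r → r ≤ r0 → ∀ (M : ℝ) (g : ℝ × ℝ → ℝ), WkTest D g → (∀ y, |g y| ≤ M) → (∀ y, y ∉ wkBall z r → g y = 0) →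
      T (Multiset.replicate (2 * m) g) ≤ C * (M * r ^ 2) ^ (2 * m) * (1 + Real.log (1 / r)) ^ m
  /-- (A2loc) -/
  harm : ∀ (z0 : ℝ × ℝ) (ρ : ℝ) (φ : ℝ × ℝ → ℝ) (s : Multiset (ℝ × ℝ → ℝ)), 0 < ρ → wkBall z0 ρ ⊆ D →
    ContDiff ℝ ∞ φ → tsupport φ ⊆ wkBall z0 (ρ / 2000) →
    (∀ g ∈ s, WkTest D g ∧ ∃ (c : ℝ × ℝ) (r : ℝ), 0 < r ∧ r < ρ / (4000 * ((Multiset.card s : ℝ) + 1)) ∧ wkBall c r ⊆ D ∧
      (2 * ρ) ^ 2 ≤ sqDist c z0 ∧ ∀ y, y ∉ wkBall c r → g y = 0) →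
    T (lap2 φ ::ₘ s) = 0
  /-- (A3) -/
  bdry : ∃ θ : ℝ, 0 < θ ∧ θ ≤ 1 / 4 ∧ ∀ s : Multiset (ℝ × ℝ → ℝ), (∀ k ∈ s, WkTest D k) → ∀ A : ℝ, 0 < A → ∀ η : ℝ, 0 < η →
    ∃ a : ℝ, 0 < a ∧ ∀ z ∈ D, limDep D z < a → ∀ g : ℝ × ℝ → ℝ, Continuous g → (∀ y, 0 ≤ g y) → (∀ y, g y ≤ A / limDep D z ^ 2) →
      (∀ y, y ∉ wkBall z (θ * limDep D z) → g y = 0) → |T (g ::ₘ s)| ≤ η
  /-- (A4) -/
  coll : ∀ (K0 : Set (ℝ × ℝ)) (R0 : ℝ), IsCompact K0 → 0 < R0 → (∀ y0 ∈ K0, wkBall y0 R0 ⊆ D) →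
    ∀ s : Multiset (ℝ × ℝ → ℝ), (∀ k ∈ s, WkTest D k) → (∀ k ∈ s, ∀ y0 ∈ K0, ∀ y ∈ wkBall y0 R0, k y = 0) →
    ∀ η β : ℝ × ℝ → ℝ, ContDiff ℝ ∞ η → HasCompactSupport η → ContDiff ℝ ∞ β → HasCompactSupport β → ∫ y, β y = 0 →
    ∀ ε : ℝ, 0 < ε → ∃ r0 : ℝ, 0 < r0 ∧ ∀ y0 ∈ K0, ∀ r : ℝ, 0 < r → r < r0 →
      |T ((fun y => -lap2 (limSc η y0 r) y) ::ₘ (fun y => (r ^ 2)⁻¹ * limSc β y0 r y) ::ₘ s) - v * (∫ y, η y * β y) * T s| ≤ ε

/-- every multiset is the family of values of a `Fin`-indexed family (bridge for the producers, whose statements are `Fin`-indexed) -/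
theorem wk_multiset_fin {α : Type*} (s : Multiset α) : ∃ (k : ℕ) (f : Fin k → α), k = Multiset.card s ∧ s = (Finset.univ : Finset (Fin k)).val.map f := by
  induction s using Quotient.inductionOn with
  | h l =>
    refine ⟨l.length, l.get, by simp, ?_⟩
    have h1 : (Finset.univ : Finset (Fin l.length)).val = ((List.finRange l.length : List (Fin l.length)) : Multiset (Fin l.length)) := rfl
    rw [h1, Multiset.map_coe]
    have h2 : List.map l.get (List.finRange l.length) = l := by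
      rw [← List.ofFn_eq_map]
      exact List.ofFn_get l
    rw [h2]
    rfl

end Claimed.Agent.R291
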